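import Vale.Agent.P307.R2.H541.Uq

/-!
Adding an independent point to a finite-dimensional prime system.
-/

universe u

open Set Cardinal Function
open scoped Classical

namespace Vale.Agent.P307.R2.H541

namespace PG

variable {C : Type u} {M : PG C} {P A B R : Set C}

/-- Transitivity. -/
theorem Ind.trans (h : M.Ind P A R) (h' : M.Ind R A B) (hPR : P ⊆ R) : M.Ind P A B := by
  intro D hD hDc E hE hEc
  obtain ⟨g, hg, h1, h2⟩ := h' D (hD.trans (union_subset_union_left A hPR)) hDc E hE hEc
  obtain ⟨k, hk, h3, h4⟩ := h D hD hDc (g '' E) (by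
    rintro _ ⟨e, he, rfl⟩
    exact h2 e he) (small_image g hEc)
  refine ⟨k * g, M.G.mul_mem hk hg, fun a ha => ?_, fun b hb => ?_⟩
  · rw [Equiv.Perm.mul_apply, h1 a ha, h3 a ha]
  · rw [Equiv.Perm.mul_apply]
    exact h4 _ (mem_image_of_mem g hb)

/-- The base as a part of the right side. -/
theorem Ind.base_right (h : M.Ind P A B) : M.Ind P A (P ∪ B) := by
  intro D hD hDc E hE hEc
  obtain ⟨g, hg, h1, h2⟩ := h (D ∪ (E ∩ P)) (union_subset hD fun x hx => Or.inl hx.2)
    (small_union hDc (small_subset inter_subset_left hEc)) (E ∩ B) inter_subset_right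
    (small_subset inter_subset_left hEc)
  refine ⟨g, hg, fun a ha => h1 a (Or.inl ha), fun b hb => ?_⟩
  rcases hE hb with h3 | h3
  · rw [h1 b (Or.inr ⟨hb, h3⟩)]
    exact h3
  · exact h2 b ⟨hb, h3⟩

theorem Ind.of_sub (hB : B ⊆ P) : M.Ind P A B := fun _ _ _ _ hE _ =>
  ⟨1, M.G.one_mem, fun _ _ => rfl, fun _ hb => hB (hE hb)⟩

/-- Monotonicity of the base. -/
theorem Calc.ind_base (hM : M.Calc) {P' : Set C} (hP : P ∈ M.S) (hP' : P' ∈ M.S) (hPP : P ⊆ P')
    (h : M.Ind P A (P' ∪ B)) : M.Ind P' A B :=
  hM.sym hP' ((hM.sym hP h).base_mono hPP)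

variable (M) in
/-- Strong models over given sets, conjugacy over strong models, and free extensions. -/
structure Big : Prop where
  ls : ∀ X : Set C, #X ≤ M.χ → ∃ N ∈ M.S, X ⊆ N
  conj : ∀ {P E : Set C}, P ∈ M.S → #E < M.χ → ∀ f : C → C,
    (∀ A ⊆ P, #A < M.χ → ∃ g ∈ M.G, (∀ a ∈ A, g a = a) ∧ ∀ e ∈ E, g e = f e) →
      ∃ g ∈ M.G, (∀ a ∈ P, g a = a) ∧ ∀ e ∈ E, g e = f e
  free : ∀ {P E Z : Set C}, P ∈ M.S → #E < M.χ → #Z ≤ M.χ →
    ∃ g ∈ M.G, (∀ a ∈ P, g a = a) ∧ M.Ind P (g '' E) Z

variable (M) in
/-- Existence of atomic models over the boundaries of independent systems, in every finite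
dimension. -/
def DI : Prop := ∀ (A : Finset C → Set C) (s : Finset C), s.Nonempty →
  (∀ t, t ⊂ s → M.PSys A t) → (∀ x ∈ s, M.Ind (A ∅) {x} (A (s.erase x))) →
    ∃ N, M.Atomic N (bd A s)

variable {A : Finset C → Set C} {s : Finset C}

/-- Adding an independent point, inside a given model. -/
theorem PSys.exists_insert (hM : M.Calc) (hD : M.DI) (hA : M.PSys A s) {y : C} (hys : y ∉ s)
    (hy : M.Ind (A ∅) {y} (A s)) {N : Set C} (hN : N ∈ M.S) (hAN : A s ⊆ N) (hyN : y ∈ N) :
    ∃ A' : Finset C → Set C, (∀ t, t ⊆ s → A' t = A t) ∧ M.PSys A' (insert y s) ∧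
      ∀ t ⊆ insert y s, A' t ⊆ N := by
  have hyt : ∀ t : Finset C, t ⊆ s → y ∉ t := fun t ht h => hys (ht h)
  have key : ∀ F, Down F → (∀ v ∈ F, v ⊆ s) → ∃ A' : Finset C → Set C,
      (∀ t, t ⊆ s → A' t = A t) ∧ ∀ v ∈ F, M.PSys A' (insert y v) ∧ A' (insert y v) ⊆ N := by
    have h0A : M.PSys A ∅ := hA.sub (Finset.empty_subset s)
    have step : ∀ (F : Finset (Finset C)) (w : Finset C) (A' : Finset C → Set C),
        (∀ v ∈ F, v ⊆ s) → w ∉ F → w ⊆ s → (∀ v ∈ F, ∀ r ⊆ v, r ∈ F) →
        (∀ t, t ⊆ s → A' t = A t) →
        (∀ v ∈ F, M.PSys A' (insert y v) ∧ A' (insert y v) ⊆ N) → (∀ r, r ⊂ w → r ∈ F) →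
        ∃ A'' : Finset C → Set C, (∀ t, t ⊆ s → A'' t = A t) ∧
          ∀ v ∈ insert w F, M.PSys A'' (insert y v) ∧ A'' (insert y v) ⊆ N := by
      intro F w A' hFs hwF hws hF hA' hsys hrw
      have hyw : y ∉ w := hyt w hws
      have hA0 : A' ∅ = A ∅ := hA' ∅ (Finset.empty_subset s)
      have hAs : M.PSys A' s := hA.congr fun t ht => (hA' t ht).symm
      -- the proper faces
      have hface : ∀ t, t ⊂ insert y w → M.PSys A' t ∧ A' t ⊆ N := by
        intro t ht
        by_cases hyt' : y ∈ t
        · have h1 : insert y (t.erase y) = t := Finset.insert_erase hyt'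
          have h2 : t.erase y ⊂ w := by
            refine lt_of_le_of_ne ?_ ?_
            · intro z hz
              have := ht.1 (Finset.mem_of_mem_erase hz)
              rw [Finset.mem_insert] at this
              exact this.resolve_left (Finset.ne_of_mem_erase hz)
            · rintro rfl
              rw [h1] at ht
              exact (lt_irrefl t ht).elim
          have h3 := hsys _ (hrw _ h2)
          rwa [h1] at h3
        · have h2 : t ⊆ w := fun z hz => by
            have := ht.1 hz
            rw [Finset.mem_insert] at this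
            exact this.resolve_left (by
              rintro rfl
              exact hyt' hz)
          refine ⟨hAs.sub (h2.trans hws), ?_⟩
          exact (hAs.mono (Finset.Subset.refl s) (h2.trans hws)).trans (by
            rw [hA' s (Finset.Subset.refl s)]
            exact hAN)
      have hind : ∀ x ∈ insert y w, M.Ind (A' ∅) {x} (A' ((insert y w).erase x)) := by
        intro x hx
        rcases Finset.mem_insert.1 hx with rfl | hxw
        · rw [Finset.erase_insert hyw, hA0, hA' w hws]
          exact hy.mono Subset.rfl (hA.mono (Finset.Subset.refl s) hws)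
        · have hxy : x ≠ y := by
            rintro rfl
            exact hyw hxw
          have h1 : (insert y w).erase x = insert y (w.erase x) :=
            Finset.erase_insert_of_ne hxy.symm
          rw [h1]
          have h2 : w.erase x ⊂ w := Finset.erase_ssubset hxw
          have h3 := (hsys _ (hrw _ h2)).1
          -- independence over the face
          have h4 : M.Ind (A' ∅) {y} (A' w) := by
            rw [hA0, hA' w hws]
            exact hy.mono Subset.rfl (hA.mono (Finset.Subset.refl s) hws)
          have h5 : A' (w.erase x) ∈ M.S := hAs.mem ((Finset.erase_subset x w).trans hws)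
          have h6 : A' (w.erase x) ⊆ A' w := hAs.mono hws (Finset.erase_subset x w)
          have h7 : M.Ind (A' (w.erase x)) {y} (A' w) := by
            refine hM.ind_base hAs.memS h5 (hAs.mono ((Finset.erase_subset x w).trans hws)
              (Finset.empty_subset _)) ?_
            rwa [union_eq_self_of_subset_left h6]
          have h8 := h3.atomic_over hM (Finset.subset_insert y (w.erase x))
          have h9 : A' (w.erase x) ∪ (insert y (w.erase x) : Finset C) =
              {y} ∪ A' (w.erase x) := by
            ext c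
            rw [Finset.coe_insert]
            constructor
            · rintro (h | h | h)
              · exact Or.inr h
              · exact Or.inl h
              · exact Or.inr (hAs.point ((Finset.erase_subset x w).trans hws) h)
            · rintro (h | h)
              · exact Or.inr (Or.inl h)
              · exact Or.inl h
          rw [h9] at h8
          have h10 := hM.sym h5 (h8.dom h7)
          exact ((hAs.sub hws).ind x hxw).trans (h10.mono (singleton_subset_iff.2
            (hAs.point hws hxw)) Subset.rfl) (hAs.mono ((Finset.erase_subset x w).trans hws)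
            (Finset.empty_subset _))
      have hne : (insert y w).Nonempty := Finset.insert_nonempty y w
      obtain ⟨B, hBN, hB⟩ := exists_ext hne (fun t ht => (hface t ht).1) hind
        (hD A' _ hne (fun t ht => (hface t ht).1) hind) hN (fun t ht => (hface t ht).2) (by
          intro x hx
          rcases Finset.mem_insert.1 hx with rfl | hxw
          · exact hyN
          · exact hAN (hA.point (Finset.Subset.refl s) (hws hxw)))
      refine ⟨update A' (insert y w) B, fun t ht => ?_, fun v hv => ?_⟩
      · rw [update_of_ne]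
        · exact hA' t ht
        · rintro rfl
          exact hys (ht (Finset.mem_insert_self y w))
      · rcases Finset.mem_insert.1 hv with rfl | hv
        · rw [update_self]
          exact ⟨hB, hBN⟩
        · have hsub : ∀ t, t ⊆ insert y v → t ≠ insert y w := by
            rintro t ht rfl
            refine hwF (hF v hv w fun z hz => ?_)
            have h1 := ht (Finset.mem_insert_of_mem hz)
            rw [Finset.mem_insert] at h1
            exact h1.resolve_left (by
              rintro rfl
              exact hyw hz)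
          rw [update_of_ne (hsub _ (Finset.Subset.refl _))]
          refine ⟨(hsys v hv).1.congr fun t ht => ?_, (hsys v hv).2⟩
          rw [update_of_ne (hsub t ht)]
    refine down_induction (p := fun F => (∀ v ∈ F, v ⊆ s) → ∃ A' : Finset C → Set C,
      (∀ t, t ⊆ s → A' t = A t) ∧ ∀ v ∈ F, M.PSys A' (insert y v) ∧ A' (insert y v) ⊆ N) ?_ ?_
    · intro _
      obtain ⟨A'', h1, h2⟩ := step ∅ ∅ A (by simp) (by simp) (Finset.empty_subset s) (by simp)
        (fun _ _ => rfl) (by simp) (fun r hr => absurd hr (Finset.not_ssubset_empty r))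
      exact ⟨A'', h1, fun v hv => h2 v (by simpa using hv)⟩
    · intro F w hF hwF hw ih hFs
      obtain ⟨A', h1, h2⟩ := ih fun v hv => hFs v (Finset.mem_insert_of_mem hv)
      exact step F w A' (fun v hv => hFs v (Finset.mem_insert_of_mem hv)) hwF
        (hFs w (Finset.mem_insert_self w F)) hF.2 h1 h2 hw
  obtain ⟨A', h1, h2⟩ := key s.powerset (down_powerset s) fun v hv => Finset.mem_powerset.1 hv
  refine ⟨A', h1, (h2 s (Finset.mem_powerset_self s)).1, fun t ht => ?_⟩
  have h3 := h2 s (Finset.mem_powerset_self s)
  exact (h3.1.mono (Finset.Subset.refl _) ht).trans h3.2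

end PG

end Vale.Agent.P307.R2.H541
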