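import Vale.Agent.P307.R2.H541.Calc
import Vale.Agent.P307.R2.H541.Ext

/-!
Free extensions and conjugacy over the strong submodels of the saturated member.
-/

set_option linter.unusedSectionVars false

universe u

open FirstOrder Cardinal Set

namespace Vale.Agent.P307.R2.H541

open Vale.Agent.P307 Vale.Agent.P307.H304 Vale.Agent.P307.R2.H287 Vale.Agent.P307.R2.H1
  Vale.Agent.P307.R2.H971 Vale.Agent.P307.R2.H804 Language.Structure Language.Substructure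

variable {L : Language.{u, u}} {K : AEC L} {ℓ θ : Cardinal.{u}}
  {κf α : Cardinal.{u} → Cardinal.{u}} {C : Type u} [L.Structure C]

section

variable (h₀ : BasePt K ℓ κf α θ) (hK : K.IsLS ℓ)
  (hunb : ∀ ν, ν < κf ν ∧ K.CategoricalIn (κf ν)) (hst : Stab K ℓ α (H287.thr κf))
  (hCm : K.mem C) (hs : Sat K θ C) (hCc : #C = Order.succ θ)

include h₀ hK hCm hCc

omit hCm hCc in
theorem pg_ls (hCm : K.mem C) (hCc : #C = Order.succ θ) {X : Set C} (hX : #X ≤ θ) :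
    ∃ D : L.Substructure C, K.le D ∧ #D = θ ∧ X ⊆ D := by
  obtain ⟨M, hM, hMA, hMc⟩ := exists_sub_card hK h₀.pt.lt.le hCm
    ((Order.le_succ θ).trans hCc.ge) X hX
  exact ⟨M, hM, hMc, hMA⟩

include hunb hst hs

/-- Tuples with the same small types over a strong submodel are conjugate over it. -/
theorem pg_conj {D : L.Substructure C} (hD : K.le D) (hDc : #D = θ) {E : Set C} (hE : #E < θ)
    (f : C → C) (h : ∀ A ⊆ (D : Set C), #A < θ → ∃ g ∈ autG L C, (∀ a ∈ A, g a = a) ∧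
      ∀ e ∈ E, g e = f e) :
    ∃ g ∈ autG L C, (∀ a ∈ (D : Set C), g a = a) ∧ ∀ e ∈ E, g e = f e := by
  obtain ⟨ν, μ, ρ, h1, h2, hl⟩ := exists_lvl h₀ hE
  have hμ0 : ℵ₀ ≤ μ := hl.hμ hK
  have hEμ : #E ≤ μ := h1.trans hl.νμ
  obtain ⟨g, hg, hg'⟩ := exists_aut h₀ hK hunb hl hCm hs hCc D hD hDc h1
    (fun e : E => (e : C)) (fun e : E => f e) (by
    intro ζ y hζ hy
    obtain ⟨k, ⟨e, he⟩, h3, h4⟩ := h (range y) (by
      rintro _ ⟨z, rfl⟩
      exact hy z) (mk_range_le.trans_lt (hζ.trans_lt (hl.μΛ hunb)))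
    have h5 := H804.EqS.equiv hμ0 (mk_sum_le' hμ0 hζ hEμ) e
      (Sum.elim y fun e : E => (e : C))
    refine h5.subset ?_
    rintro _ ⟨z | x, rfl⟩
    · refine ⟨Sum.inl z, Prod.ext rfl ?_⟩
      change e (y z) = y z
      rw [he]
      exact h3 _ ⟨z, rfl⟩
    · refine ⟨Sum.inr x, Prod.ext rfl ?_⟩
      change e x = f x
      rw [he]
      exact h4 x x.2)
  exact ⟨g.toEquiv, mem_autG g, hg, fun e he => hg' ⟨e, he⟩⟩

/-- Free extensions. -/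
theorem pg_free {D : L.Substructure C} (hD : K.le D) (hDc : #D = θ) {E Z : Set C} (hE : #E < θ)
    (hZ : #Z ≤ θ) : ∃ g ∈ autG L C, (∀ a ∈ (D : Set C), g a = a) ∧
      (pg h₀ hK hunb hst hCm hs hCc).Ind (D : Set C) (g '' E) Z := by
  have hθ := aleph0_le_pt h₀ hK
  obtain ⟨ν, μ, ρ, h1, h2, hl⟩ := exists_lvl h₀ hE
  have hμ0 : ℵ₀ ≤ μ := hl.hμ hK
  have hEμ : #E ≤ μ := h1.trans hl.νμ
  obtain ⟨N, hN, hNA, hNc⟩ := exists_sub_card hK h₀.pt.lt.le hCm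
    ((Order.le_succ θ).trans hCc.ge) ((D : Set C) ∪ Z)
    ((mk_union_le _ _).trans (add_le_of_le hθ hDc.le hZ))
  have hDN : (D : Set C) ⊆ N := fun x hx => hNA (Or.inl hx)
  have hR := refl_big h₀ hK hunb hl D hD hDc
  obtain ⟨r, hr1, hr2⟩ := exists_free h₀ hK hunb hl hs N hN hNc hEμ (fun e : E => (e : C)) hDN hR
  -- `r` is conjugate to `E` over `D`
  obtain ⟨g, hg1, hg2⟩ := exists_aut h₀ hK hunb hl hCm hs hCc D hD hDc h1
    (fun e : E => (e : C)) r (fun ζ y hζ hy => (hr2 ζ y hζ hy).symm)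
  refine ⟨g.toEquiv, mem_autG g, hg1, ?_⟩
  have hgE : g.toEquiv '' E = range r := by
    ext x
    constructor
    · rintro ⟨e, he, rfl⟩
      exact ⟨⟨e, he⟩, (hg2 ⟨e, he⟩).symm⟩
    · rintro ⟨e, rfl⟩
      exact ⟨e, e.2, hg2 e⟩
  rw [hgE]
  refine pg_sym h₀ hK hunb hst hCm hs hCc hD hDc ?_
  suffices hsuf : (pg h₀ hK hunb hst hCm hs hCc).Ind (D : Set C) N (range r) from
    hsuf.mono (fun x hx => hNA (Or.inr hx)) Subset.rfl
  intro A hA hAc F hF hFc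
  change #A < θ at hAc
  have hA' : A ⊆ N := fun x hx => (hA hx).elim (fun h => hDN h) id
  -- a higher level
  have hop : opB κf μ < θ := (Order.lt_succ _).trans_le (hl.opB.trans hl.lt.le)
  obtain ⟨ν', μ', ρ', h3, h4, hl'⟩ := exists_lvl h₀ (σ := #A + #E + opB κf μ)
    (add_lt_of_lt hθ (add_lt_of_lt hθ hAc hE) hop)
  have hopν : opB κf μ ≤ ν' := (self_le_add_left _ _).trans h3
  have hμν : μ ≤ ν' := (le_opB hunb μ).trans hopν
  have hAν : #A ≤ ν' := ((self_le_add_right _ _).trans (self_le_add_right _ _)).trans h3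
  have hEν : #E ≤ ν' := ((self_le_add_left _ _).trans (self_le_add_right _ _)).trans h3
  have hμμ : μ ≤ μ' := hμν.trans hl'.νμ
  have hR' := refl_big h₀ hK hunb hl' D hD hDc
  obtain ⟨r', hr1', hr2'⟩ := exists_free h₀ hK hunb hl' hs N hN hNc (hEν.trans hl'.νμ)
    (fun e : E => (e : C)) hDN hR'
  obtain ⟨a', ha', hc'⟩ := hr1'
  obtain ⟨a, ha, hc⟩ := hr1
  obtain ⟨k, hk1, hk2⟩ := exists_aut h₀ hK hunb hl hCm hs hCc N hN hNc h1 r r' (by
    intro ζ y hζ hy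
    refine Conv.uniq (ρ := ρ') hμ0 (hμμ.trans (hl'.μρ hunb)) hEμ ?_ ?_ hR' ha ha' hc
      (hc'.level hμ0 hμμ hEμ) ?_ hζ y fun z => Or.inr (hy z)
    · rw [mk_succTy]
      refine Order.succ_le_of_lt ?_
      refine lt_of_le_of_lt ((hopν.trans hl'.νμ).trans (le_opB hunb μ')) ?_
      exact (Order.lt_succ _).trans_le hl'.opB
    · rw [mk_succTy]
      exact hl'.opB
    · intro ξ z hξ hz
      refine (hr2 ξ z hξ hz).trans (EqS.symm ?_)
      exact (hr2' ξ z (hξ.trans hμμ) hz).mono hμ0 hμμ (mk_sum_le' hμ0 hξ hEμ))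
  obtain ⟨x, hx⟩ := hc' A (fun b => b) (hAν.trans hl'.νμ) (fun b => Or.inr (hA' b.2))
  have h5 := hx x le_rfl
  have hν0 : ℵ₀ ≤ ν' := hK.1.trans hl'.hℓ
  have hνα : ν' ≤ α ν' := (hst ν' hl'.hℓ).1
  have h6 := EqS.mono (hν0.trans hνα) h4 h5
    (mk_sum_le' (hν0.trans hνα) (hAν.trans hνα) (hEν.trans hνα))
  obtain ⟨l, hl1, hl2⟩ := exists_mem_autG h₀ hK hunb hst hCm hs hCc hl'.hℓ
    (hl'.νμ.trans_lt (hl'.μΛ hunb)) (mk_sum_le' hν0 hAν hEν) _ _ h6.symm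
  refine ⟨l * k.toEquiv, mul_mem hl1 (mem_autG k), fun b hb => ?_, fun b hb => ?_⟩
  · change l (k b) = b
    rw [hk1 b (hA' hb)]
    exact hl2 (Sum.inl ⟨b, hb⟩)
  · obtain ⟨i, rfl⟩ := hF hb
    change l (k (r i)) ∈ (D : Set C)
    rw [hk2 i]
    have h7 : l (r' i) = a' x i := hl2 (Sum.inr i)
    rw [h7]
    exact ha' x i

theorem pg_big : (pg h₀ hK hunb hst hCm hs hCc).Big := by
  refine ⟨fun X hX => ?_, ?_, ?_⟩
  · obtain ⟨D, h1, h2, h3⟩ := pg_ls h₀ hK hCm hCc hX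
    exact ⟨D, ⟨D, h1, h2, rfl⟩, h3⟩
  · rintro P E ⟨D, hD, hDc, rfl⟩ hE f hf
    exact pg_conj h₀ hK hunb hst hCm hs hCc hD hDc hE f hf
  · rintro P E Z ⟨D, hD, hDc, rfl⟩ hE hZ
    exact pg_free h₀ hK hunb hst hCm hs hCc hD hDc hE hZ

end

end Vale.Agent.P307.R2.H541
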