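import Vale.Agent.P307.R2.H541.Iso
import Mathlib.Data.Finset.Powerset
import Mathlib.Data.Finset.Lattice.Fold
import Mathlib.Data.Finset.Max

/-!
Finite-dimensional prime systems in a homogeneous structure with a symmetric independence relation:
reflection of the whole cube, intersections, uniqueness, extension.
-/

universe u

open Set Cardinal Function

namespace Vale.Agent.P307.R2.H541

open scoped Classical

/-- A family of finite sets closed under subsets. -/
def Down {α : Type*} (F : Finset (Finset α)) : Prop := ∅ ∈ F ∧ ∀ v ∈ F, ∀ r ⊆ v, r ∈ F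

theorem down_induction {α : Type*} {p : Finset (Finset α) → Prop} (h0 : p {∅})
    (hstep : ∀ F w, Down F → w ∉ F → (∀ r, r ⊂ w → r ∈ F) → p F → p (insert w F)) :
    ∀ F, Down F → p F := by
  intro F
  induction F using Finset.strongInduction with
  | H F ih =>
    intro hF
    by_cases h1 : F = {∅}
    · rw [h1]
      exact h0
    obtain ⟨w, hw, hmax⟩ := Finset.exists_max_image F Finset.card ⟨∅, hF.1⟩
    have hw0 : w ≠ ∅ := by
      rintro rfl
      apply h1
      ext v
      rw [Finset.mem_singleton]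
      constructor
      · intro hv
        have := hmax v hv
        rw [Finset.card_empty, Nat.le_zero, Finset.card_eq_zero] at this
        exact this
      · rintro rfl
        exact hw
    have hd : Down (F.erase w) := by
      refine ⟨Finset.mem_erase.2 ⟨hw0.symm, hF.1⟩, fun v hv r hr => ?_⟩
      rw [Finset.mem_erase] at hv ⊢
      refine ⟨?_, hF.2 v hv.2 r hr⟩
      rintro rfl
      exact hv.1 (Finset.eq_of_subset_of_card_le hr (hmax v hv.2)).symm
    have h2 := hstep (F.erase w) w hd (Finset.notMem_erase w F) (fun r hr =>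
      Finset.mem_erase.2 ⟨hr.ne, hF.2 w hw r hr.1⟩) (ih _ (Finset.erase_ssubset hw) hd)
    rwa [Finset.insert_erase hw] at h2

theorem down_powerset {α : Type*} (s : Finset α) : Down s.powerset :=
  ⟨Finset.empty_mem_powerset s, fun _ hv _ hr =>
    Finset.mem_powerset.2 (hr.trans (Finset.mem_powerset.1 hv))⟩

namespace PG

variable {C : Type u} (M : PG C)

/-- Coheir independence: small subsets of `B` are reflected into `P` over small subsets of
`P ∪ A`. -/
def Ind (P A B : Set C) : Prop := ∀ A' ⊆ P ∪ A, #A' < M.χ → ∀ B' ⊆ B, #B' < M.χ →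
  ∃ g ∈ M.G, (∀ a ∈ A', g a = a) ∧ ∀ b ∈ B', g b ∈ P

/-- Symmetry and the existence of small bases. -/
structure Calc : Prop where
  sym : ∀ {P A B : Set C}, P ∈ M.S → M.Ind P A B → M.Ind P B A
  based : ∀ {P E : Set C}, P ∈ M.S → #E < M.χ → ∃ p ⊆ P, #p < M.χ ∧ ∀ g ∈ M.G,
    (∀ x ∈ p, g x = x) → ∀ D : Set C, #D < M.χ → M.Ind P E D → M.Ind P E (g '' D) →
      ∃ h ∈ M.G, (∀ x ∈ p, h x = x) ∧ (∀ x ∈ E, h x = x) ∧ ∀ x ∈ D, h x = g x

variable {M} {P A B X Y : Set C}

namespace Ind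

theorem mono {A' B' : Set C} (h : M.Ind P A B) (hA : A' ⊆ A) (hB : B' ⊆ B) : M.Ind P A' B' :=
  fun D hD hDc E hE hEc => h D (hD.trans (union_subset_union_right P hA)) hDc E (hE.trans hB) hEc

theorem base_left (h : M.Ind P A B) : M.Ind P (P ∪ A) B :=
  fun D hD hDc E hE hEc => h D (by rwa [← union_assoc, union_self] at hD) hDc E hE hEc

/-- Base monotonicity on the left side. -/
theorem base_mono {P' : Set C} (h : M.Ind P (P' ∪ A) B) (hP : P ⊆ P') : M.Ind P' A B := by
  intro D hD hDc E hE hEc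
  obtain ⟨g, hg, h1, h2⟩ := h D (hD.trans subset_union_right) hDc E hE hEc
  exact ⟨g, hg, h1, fun b hb => hP (h2 b hb)⟩

theorem smul (h : M.Ind P A B) {g : Equiv.Perm C} (hg : g ∈ M.G) :
    M.Ind (g '' P) (g '' A) (g '' B) := by
  intro D hD hDc E hE hEc
  obtain ⟨k, hk, h1, h2⟩ := h ((g⁻¹ : Equiv.Perm C) '' D) (by
    rintro _ ⟨d, hd, rfl⟩
    rcases hD hd with ⟨a, ha, rfl⟩ | ⟨a, ha, rfl⟩
    · rw [inv_ap]
      exact Or.inl ha
    · rw [inv_ap]
      exact Or.inr ha) (small_image _ hDc) ((g⁻¹ : Equiv.Perm C) '' E) (by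
    rintro _ ⟨d, hd, rfl⟩
    obtain ⟨a, ha, rfl⟩ := hE hd
    rw [inv_ap]
    exact ha) (small_image _ hEc)
  refine ⟨g * k * g⁻¹, M.G.mul_mem (M.G.mul_mem hg hk) (M.G.inv_mem hg), fun a ha => ?_,
    fun b hb => ⟨k (g⁻¹ b), h2 _ (mem_image_of_mem _ hb), rfl⟩⟩
  change g (k (g⁻¹ a)) = a
  rw [h1 _ (mem_image_of_mem _ ha), ap_inv]

/-- Points of `A` and of `B`. -/
theorem inter_sub (h : M.Ind P A B) : A ∩ B ⊆ P := by
  rintro e ⟨h1, h2⟩
  obtain ⟨g, -, h3, h4⟩ := h {e} (singleton_subset_iff.2 (Or.inr h1))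
    (small_finite (finite_singleton e)) {e} (singleton_subset_iff.2 h2)
    (small_finite (finite_singleton e))
  have := h4 e rfl
  rwa [h3 e rfl] at this

end Ind

/-- Domination: a model which is atomic over `P ∪ {x}` is dominated by `x` over `P`. -/
theorem Atomic.dom {N : Set C} {x : Set C} (hN : M.Atomic N (x ∪ P)) {Z : Set C}
    (h : M.Ind P x Z) : M.Ind P N Z := by
  intro D hD hDc E hE hEc
  have hPN : P ⊆ N := subset_union_right.trans hN.sub
  have hDN : D ⊆ N := fun d hd => (hD hd).elim (fun h => hPN h) id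
  obtain ⟨B, hBX, hBc, hB⟩ := hN.iso D hDN hDc
  obtain ⟨g, hg, h1, h2⟩ := h B (by rwa [union_comm] at hBX) hBc E hE hEc
  obtain ⟨k, hk, h3, h4⟩ := hB g hg h1 (g '' E) (by
    rintro _ ⟨e, he, rfl⟩
    exact Or.inr (h2 e he)) (small_image g hEc)
  refine ⟨k⁻¹ * g, M.G.mul_mem (M.G.inv_mem hk) hg, fun a ha => ?_, fun b hb => ?_⟩
  · rw [Equiv.Perm.mul_apply, ← h4 a ha, inv_ap]
  · rw [Equiv.Perm.mul_apply, fix_inv (h3 _ (mem_image_of_mem g hb))]
    exact h2 b hb

/-! ### Systems -/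

/-- The boundary of `t`. -/
def bd (A : Finset C → Set C) (t : Finset C) : Set C := {c | c ∈ t ∨ ∃ r, r ⊂ t ∧ c ∈ A r}

/-- The union of a family. -/
def un (A : Finset C → Set C) (F : Finset (Finset C)) : Set C := {c | ∃ v ∈ F, c ∈ A v}

variable (M) in
/-- A finite-dimensional prime system: `A ∅` is a model, the points of `s` are independent, and
`A t` is atomic over its boundary. -/
structure PSys (A : Finset C → Set C) (s : Finset C) : Prop where
  memS : A ∅ ∈ M.S
  ind : ∀ x ∈ s, M.Ind (A ∅) {x} (A (s.erase x))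
  atomic : ∀ t ⊆ s, t.Nonempty → M.Atomic (A t) (bd A t)

variable {A : Finset C → Set C} {s : Finset C}

theorem un_insert (w : Finset C) (F : Finset (Finset C)) :
    un A (insert w F) = A w ∪ un A F := by
  ext c
  constructor
  · rintro ⟨v, hv, hc⟩
    rcases Finset.mem_insert.1 hv with rfl | hv
    · exact Or.inl hc
    · exact Or.inr ⟨v, hv, hc⟩
  · rintro (hc | ⟨v, hv, hc⟩)
    · exact ⟨w, Finset.mem_insert_self w F, hc⟩
    · exact ⟨v, Finset.mem_insert_of_mem hv, hc⟩

theorem bd_congr {A' : Finset C → Set C} {t : Finset C} (h : ∀ r, r ⊂ t → A r = A' r) :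
    bd A t = bd A' t := by
  ext c
  constructor
  · rintro (hc | ⟨r, hr, hc⟩)
    · exact Or.inl hc
    · exact Or.inr ⟨r, hr, by rwa [← h r hr]⟩
  · rintro (hc | ⟨r, hr, hc⟩)
    · exact Or.inl hc
    · exact Or.inr ⟨r, hr, by rwa [h r hr]⟩

namespace PSys

theorem mem (hA : M.PSys A s) {t : Finset C} (ht : t ⊆ s) : A t ∈ M.S := by
  rcases t.eq_empty_or_nonempty with rfl | h
  · exact hA.memS
  · exact (hA.atomic t ht h).mem

theorem mono (hA : M.PSys A s) {t r : Finset C} (ht : t ⊆ s) (hr : r ⊆ t) : A r ⊆ A t := by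
  rcases eq_or_ne r t with rfl | hne
  · exact Subset.rfl
  · have hrt : r ⊂ t := lt_of_le_of_ne hr hne
    have h0 : t.Nonempty := by
      rw [Finset.nonempty_iff_ne_empty]
      rintro rfl
      exact Finset.not_ssubset_empty r hrt
    exact fun c hc => (hA.atomic t ht h0).sub (Or.inr ⟨r, hrt, hc⟩)

theorem point (hA : M.PSys A s) {t : Finset C} (ht : t ⊆ s) {x : C} (hx : x ∈ t) : x ∈ A t :=
  (hA.atomic t ht ⟨x, hx⟩).sub (Or.inl hx)

theorem sub (hA : M.PSys A s) {t : Finset C} (ht : t ⊆ s) : M.PSys A t := by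
  refine ⟨hA.memS, fun x hx => ?_, fun r hr h0 => hA.atomic r (hr.trans ht) h0⟩
  exact (hA.ind x (ht hx)).mono Subset.rfl
    (hA.mono (Finset.erase_subset x s) (Finset.erase_subset_erase x ht))

theorem congr {A' : Finset C → Set C} (hA : M.PSys A s) (h : ∀ t, t ⊆ s → A t = A' t) :
    M.PSys A' s := by
  refine ⟨?_, fun x hx => ?_, fun t ht h0 => ?_⟩
  · rw [← h ∅ (Finset.empty_subset s)]
    exact hA.memS
  · rw [← h ∅ (Finset.empty_subset s), ← h _ (Finset.erase_subset x s)]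
    exact hA.ind x hx
  · rw [← h t ht, ← bd_congr fun r hr => h r (hr.1.trans ht)]
    exact hA.atomic t ht h0

/-- The models of the opposite faces are independent. -/
theorem ind_face (hA : M.PSys A s) {x : C} (hx : x ∈ s) :
    M.Ind (A ∅) (A {x}) (A (s.erase x)) := by
  have h1 := hA.atomic {x} (Finset.singleton_subset_iff.2 hx) (Finset.singleton_nonempty x)
  have h2 : bd A {x} = {x} ∪ A ∅ := by
    ext c
    constructor
    · rintro (hc | ⟨r, hr, hc⟩)
      · exact Or.inl (Finset.mem_singleton.1 hc)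
      · rw [Finset.ssubset_singleton_iff] at hr
        subst hr
        exact Or.inr hc
    · rintro (hc | hc)
      · exact Or.inl (Finset.mem_singleton.2 hc)
      · exact Or.inr ⟨∅, Finset.ssubset_singleton_iff.2 rfl, hc⟩
  rw [h2] at h1
  exact h1.dom (hA.ind x hx)

end PSys

variable (M) in
/-- Reflection for a family of faces. -/
def Ref (A : Finset C → Set C) (F : Finset (Finset C)) : Prop := ∀ x, ∀ E ⊆ un A F, #E < M.χ →
  ∃ g ∈ M.G, ∀ v ∈ F, ∀ e ∈ E, e ∈ A v → g e ∈ A (v.erase x) ∧ (x ∉ v → g e = e)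

/-- Reflection in several directions. -/
theorem Ref.many {F : Finset (Finset C)} (hF : Down F) (h : M.Ref A F) (T : Finset C) :
    ∀ E ⊆ un A F, #E < M.χ → ∃ g ∈ M.G, ∀ v ∈ F, ∀ e ∈ E, e ∈ A v →
      g e ∈ A (v \ T) ∧ (Disjoint v T → g e = e) := by
  induction T using Finset.induction_on with
  | empty =>
    intro E hE hEc
    exact ⟨1, M.G.one_mem, fun v hv e he hev => ⟨by rwa [Finset.sdiff_empty], fun _ => rfl⟩⟩
  | insert y T hy ih =>
    intro E hE hEc
    obtain ⟨g, hg, h1⟩ := ih E hE hEc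
    obtain ⟨k, hk, h2⟩ := h y (g '' E) (by
      rintro _ ⟨e, he, rfl⟩
      obtain ⟨v, hv, hev⟩ := hE he
      exact ⟨v \ T, hF.2 v hv _ Finset.sdiff_subset, (h1 v hv e he hev).1⟩) (small_image g hEc)
    refine ⟨k * g, M.G.mul_mem hk hg, fun v hv e he hev => ?_⟩
    have h3 := h1 v hv e he hev
    have h4 := h2 (v \ T) (hF.2 v hv _ Finset.sdiff_subset) (g e) (mem_image_of_mem g he) h3.1
    constructor
    · have h5 : (v \ T).erase y = v \ insert y T := by
        ext z
        simp only [Finset.mem_erase, Finset.mem_sdiff, Finset.mem_insert, not_or]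
        tauto
      rw [← h5]
      exact h4.1
    · intro hd
      rw [Finset.disjoint_insert_right] at hd
      rw [Equiv.Perm.mul_apply, h4.2 fun h6 => hd.1 (Finset.mem_sdiff.1 h6).1, h3.2 hd.2]

/-- The new face: the union of the old faces reflects into the boundary. -/
theorem Ref.tv {F : Finset (Finset C)} (hF : Down F) (h : M.Ref A F) (hFs : ∀ v ∈ F, v ⊆ s)
    {w : Finset C} (hwF : w ∉ F) (hw : ∀ r, r ⊂ w → r ∈ F)
    (hbd : bd A w ⊆ un A F) (hbd' : ∀ c ∈ bd A w, ∃ r, r ⊂ w ∧ c ∈ A r) :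
    M.TV (bd A w) (un A F) := by
  intro D hD hDc E hE hEc
  obtain ⟨g, hg, h1⟩ := h.many hF (s \ w) (D ∪ E) (union_subset (hD.trans hbd) hE)
    (small_union hDc hEc)
  refine ⟨g, hg, fun a ha => ?_, fun d hd => ?_⟩
  · obtain ⟨r, hr, har⟩ := hbd' a (hD ha)
    refine (h1 r (hw r hr) a (Or.inl ha) har).2 ?_
    exact Finset.disjoint_left.2 fun z hz hz' => (Finset.mem_sdiff.1 hz').2 (hr.1 hz)
  · obtain ⟨v, hv, hdv⟩ := hE hd
    refine Or.inr ⟨v \ (s \ w), ?_, (h1 v hv d (Or.inr hd) hdv).1⟩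
    have h2 : v \ (s \ w) ⊆ w := by
      intro z hz
      rw [Finset.mem_sdiff, Finset.mem_sdiff, not_and, not_not] at hz
      exact hz.2 (hFs v hv hz.1)
    refine lt_of_le_of_ne h2 fun h3 => hwF (hF.2 v hv w ?_)
    rw [← h3]
    exact Finset.sdiff_subset

namespace PSys

theorem bd_sub_un (hA : M.PSys A s) {F : Finset (Finset C)} {w : Finset C} (hws : w ⊆ s)
    (hw : ∀ r, r ⊂ w → r ∈ F) (hw2 : 1 < w.card) :
    bd A w ⊆ un A F ∧ ∀ c ∈ bd A w, ∃ r, r ⊂ w ∧ c ∈ A r := by
  have h1 : ∀ c ∈ bd A w, ∃ r, r ⊂ w ∧ c ∈ A r := by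
    rintro c (hc | hc)
    · refine ⟨{c}, ?_, hA.point (Finset.singleton_subset_iff.2 (hws hc))
        (Finset.mem_singleton_self c)⟩
      refine lt_of_le_of_ne (Finset.singleton_subset_iff.2 hc) ?_
      rintro rfl
      simp at hw2
    · exact hc
  refine ⟨fun c hc => ?_, h1⟩
  obtain ⟨r, hr, hcr⟩ := h1 c hc
  exact ⟨r, hw r hr, hcr⟩

/-- The case distinction: the empty set, singletons, larger sets. -/
theorem cases_card (w : Finset C) : w = ∅ ∨ (∃ y, w = {y}) ∨ 1 < w.card := by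
  rcases Nat.lt_trichotomy w.card 1 with h | h | h
  · left
    exact Finset.card_eq_zero.1 (Nat.lt_one_iff.1 h)
  · right
    left
    exact Finset.card_eq_one.1 h
  · exact Or.inr (Or.inr h)

/-- The old faces lie in the opposite face of a new point. -/
theorem un_sub (hA : M.PSys A s) {F : Finset (Finset C)} (hF : Down F) (hFs : ∀ v ∈ F, v ⊆ s)
    {y : C} (hy : {y} ∉ F) : un A F ⊆ A (s.erase y) := by
  rintro c ⟨v, hv, hc⟩
  refine hA.mono (Finset.erase_subset y s) (r := v) ?_ hc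
  refine Finset.subset_erase.2 ⟨hFs v hv, fun h => hy (hF.2 v hv {y} ?_)⟩
  exact Finset.singleton_subset_iff.2 h

/-- Lifting of isolation from the boundary of a new face to all the old faces. -/
theorem lift_un (hA : M.PSys A s) {F : Finset (Finset C)} (hF : Down F) (hFs : ∀ v ∈ F, v ⊆ s)
    (h : M.Ref A F) {w : Finset C} (hwF : w ∉ F) (hw : ∀ r, r ⊂ w → r ∈ F) (hws : w ⊆ s)
    (hw2 : 1 < w.card) {E : Set C} (hE : E ⊆ A w) (hEc : #E < M.χ) :
    ∃ B ⊆ bd A w, #B < M.χ ∧ M.Isol B (un A F) E := by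
  have h0 : w.Nonempty := Finset.card_pos.1 (by omega)
  obtain ⟨B, hB, hBc, hiso⟩ := (hA.atomic w hws h0).iso E hE hEc
  obtain ⟨h1, h2⟩ := hA.bd_sub_un hws hw hw2
  exact ⟨B, hB, hBc, hiso.lift (h.tv hF hFs hwF hw h1 h2) hB hBc⟩

/-- Reflection for all families of faces. -/
theorem ref (hM : M.Calc) (hA : M.PSys A s) (F : Finset (Finset C)) (hF : Down F)
    (hFs : ∀ v ∈ F, v ⊆ s) : M.Ref A F := by
  revert hFs
  revert hF
  revert F
  refine down_induction (p := fun F => (∀ v ∈ F, v ⊆ s) → M.Ref A F) ?_ ?_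
  · intro _ x E hE hEc
    refine ⟨1, M.G.one_mem, fun v hv e he hev => ?_⟩
    rw [Finset.mem_singleton] at hv
    subst hv
    exact ⟨by rwa [Finset.erase_empty], fun _ => rfl⟩
  intro F w hF hwF hw ih hFs'
  have hFs : ∀ v ∈ F, v ⊆ s := fun v hv => hFs' v (Finset.mem_insert_of_mem hv)
  have hws : w ⊆ s := hFs' w (Finset.mem_insert_self w F)
  have hR : M.Ref A F := ih hFs
  intro x E₀ hE₀ hE₀c
  have hEw : #(E₀ ∩ A w : Set C) < M.χ := small_inter_left _ hE₀c
  rcases cases_card w with rfl | ⟨y, rfl⟩ | hw2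
  · exact absurd hF.1 hwF
  · -- a new point
    have hys : y ∈ s := Finset.singleton_subset_iff.1 hws
    have hsub := hA.un_sub hF hFs hwF
    have hind := hA.ind_face hys
    have hPsub : A ∅ ⊆ A (s.erase y) := hA.mono (Finset.erase_subset y s) (Finset.empty_subset _)
    rcases eq_or_ne x y with rfl | hxy
    · obtain ⟨g, hg, h1, h2⟩ := hM.sym hA.memS hind (E₀ ∩ un A F)
        (fun e he => Or.inr (hsub he.2)) (small_inter_left _ hE₀c) (E₀ ∩ A {x})
        (fun e he => he.2) hEw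
      refine ⟨g, hg, fun v hv e he hev => ?_⟩
      rcases Finset.mem_insert.1 hv with rfl | hv
      · have h3 : ({x} : Finset C).erase x = ∅ := by
          ext z
          simp
        rw [h3]
        exact ⟨h2 e ⟨he, hev⟩, fun h4 => absurd (Finset.mem_singleton_self x) h4⟩
      · have h3 : x ∉ v := fun h4 => hwF (hF.2 v hv {x} (Finset.singleton_subset_iff.2 h4))
        rw [h1 e ⟨he, v, hv, hev⟩, Finset.erase_eq_of_notMem h3]
        exact ⟨hev, fun _ => rfl⟩
    · obtain ⟨p, hpP, hpc, hp⟩ := hM.based hA.memS hEw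
      obtain ⟨g, hg, h1⟩ := hR x ((E₀ ∩ un A F) ∪ p) (union_subset inter_subset_right
        fun c hc => ⟨∅, hF.1, hpP hc⟩) (small_union (small_inter_left _ hE₀c) hpc)
      have hgp : ∀ c ∈ p, g c = c := fun c hc =>
        (h1 ∅ hF.1 c (Or.inr hc) (hpP hc)).2 (Finset.notMem_empty x)
      obtain ⟨k, hk, h2, h3, h4⟩ := hp g hg hgp ((E₀ ∩ un A F) ∪ p)
        (small_union (small_inter_left _ hE₀c) hpc) (hind.mono inter_subset_right
          (union_subset (inter_subset_right.trans hsub) (hpP.trans hPsub)))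
        (hind.mono inter_subset_right (by
          rintro _ ⟨c, hc | hc, rfl⟩
          · obtain ⟨v, hv, hcv⟩ := hc.2
            exact hsub ⟨v.erase x, hF.2 v hv _ (Finset.erase_subset x v),
              (h1 v hv c (Or.inl hc) hcv).1⟩
          · rw [hgp c hc]
            exact hPsub (hpP hc)))
      refine ⟨k, hk, fun v hv e he hev => ?_⟩
      rcases Finset.mem_insert.1 hv with rfl | hv
      · have h5 : x ∉ ({y} : Finset C) := by
          rw [Finset.mem_singleton]
          exact hxy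
        rw [h3 e ⟨he, hev⟩, Finset.erase_eq_of_notMem h5]
        exact ⟨hev, fun _ => rfl⟩
      · have h5 : e ∈ (E₀ ∩ un A F) ∪ p := Or.inl ⟨he, v, hv, hev⟩
        rw [h4 e h5]
        exact h1 v hv e h5 hev
  · -- a larger face
    obtain ⟨B, hB, hBc, hiso⟩ := hA.lift_un hF hFs hR hwF hw hws hw2 (E := E₀ ∩ A w)
      inter_subset_right hEw
    obtain ⟨hbd, hbd'⟩ := hA.bd_sub_un hws hw hw2
    have hD : (E₀ ∩ un A F) ∪ B ⊆ un A F := union_subset inter_subset_right (hB.trans hbd)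
    have hDc : #((E₀ ∩ un A F) ∪ B : Set C) < M.χ := small_union (small_inter_left _ hE₀c) hBc
    obtain ⟨g, hg, h1⟩ := hR x _ hD hDc
    by_cases hxw : x ∈ w
    · have hgB : ∀ b ∈ B, g b ∈ A (w.erase x) := by
        intro b hb
        obtain ⟨r, hr, hbr⟩ := hbd' b (hB hb)
        refine hA.mono ((Finset.erase_subset x w).trans hws) (r := r.erase x)
          (Finset.erase_subset_erase x hr.1) ?_
        exact (h1 r (hw r hr) b (Or.inr hb) hbr).1
      obtain ⟨k, hk, h2, h3⟩ := M.sat (hA.mem ((Finset.erase_subset x w).trans hws))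
        (A := g '' B) (B := g '' (E₀ ∩ A w)) (by
          rintro _ ⟨b, hb, rfl⟩
          exact hgB b hb) (small_image g hBc) (small_image g hEw)
      obtain ⟨l, hl, h4, h5⟩ := hiso (g⁻¹ * k * g) (M.G.mul_mem (M.G.mul_mem
        (M.G.inv_mem hg) hk) hg) (fun b hb => by
          change g⁻¹ (k (g b)) = b
          rw [h2 _ (mem_image_of_mem g hb), inv_ap]) _ hD hDc
      refine ⟨g * l, M.G.mul_mem hg hl, fun v hv e he hev => ?_⟩
      rcases Finset.mem_insert.1 hv with rfl | hv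
      · refine ⟨?_, fun h6 => absurd hxw h6⟩
        rw [Equiv.Perm.mul_apply, h5 e ⟨he, hev⟩]
        change g (g⁻¹ (k (g e))) ∈ _
        rw [ap_inv]
        exact h3 _ (mem_image_of_mem g ⟨he, hev⟩)
      · have h6 : e ∈ (E₀ ∩ un A F) ∪ B := Or.inl ⟨he, v, hv, hev⟩
        rw [Equiv.Perm.mul_apply, h4 e h6]
        exact h1 v hv e h6 hev
    · have hgB : ∀ b ∈ B, g b = b := by
        intro b hb
        obtain ⟨r, hr, hbr⟩ := hbd' b (hB hb)
        exact (h1 r (hw r hr) b (Or.inr hb) hbr).2 fun h2 => hxw (hr.1 h2)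
      obtain ⟨l, hl, h4, h5⟩ := hiso g⁻¹ (M.G.inv_mem hg) (fun b hb => fix_inv (hgB b hb)) _ hD hDc
      refine ⟨g * l, M.G.mul_mem hg hl, fun v hv e he hev => ?_⟩
      rcases Finset.mem_insert.1 hv with rfl | hv
      · rw [Equiv.Perm.mul_apply, h5 e ⟨he, hev⟩, ap_inv, Finset.erase_eq_of_notMem hxw]
        exact ⟨hev, fun _ => rfl⟩
      · have h6 : e ∈ (E₀ ∩ un A F) ∪ B := Or.inl ⟨he, v, hv, hev⟩
        rw [Equiv.Perm.mul_apply, h4 e h6]
        exact h1 v hv e h6 hev

/-- Intersections of faces. -/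
theorem inter (hM : M.Calc) (hA : M.PSys A s) {v w : Finset C} (hv : v ⊆ s) (hw : w ⊆ s) :
    A v ∩ A w = A (v ∩ w) := by
  have hR := hA.ref hM s.powerset (down_powerset s) fun v hv => Finset.mem_powerset.1 hv
  apply Subset.antisymm
  · rintro e ⟨h1, h2⟩
    obtain ⟨g, hg, h3⟩ := hR.many (down_powerset s) (s \ w) {e}
      (singleton_subset_iff.2 ⟨v, Finset.mem_powerset.2 hv, h1⟩)
      (small_finite (finite_singleton e))
    have h4 := (h3 v (Finset.mem_powerset.2 hv) e rfl h1).1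
    have h5 := (h3 w (Finset.mem_powerset.2 hw) e rfl h2).2
      (Finset.disjoint_left.2 fun z hz hz' => (Finset.mem_sdiff.1 hz').2 hz)
    rw [h5] at h4
    have h6 : v \ (s \ w) = v ∩ w := by
      ext z
      rw [Finset.mem_sdiff, Finset.mem_sdiff, Finset.mem_inter, not_and, not_not]
      constructor
      · rintro ⟨h7, h8⟩
        exact ⟨h7, h8 (hv h7)⟩
      · rintro ⟨h7, h8⟩
        exact ⟨h7, fun _ => h8⟩
    rwa [h6] at h4
  · exact subset_inter (hA.mono hv Finset.inter_subset_left)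
      (hA.mono hw Finset.inter_subset_right)

end PSys

end PG

end Vale.Agent.P307.R2.H541
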