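import Vale.Agent.P307.R2.H541.Free
import Vale.Agent.P307.R2.H804.IsolD
import Vale.Agent.P307.R2.H804.Xfer
import Vale.Agent.P307.R2.H806.Atom

/-!
Atomic models over a strong submodel with finitely many points.
-/

set_option linter.unusedSectionVars false

universe u

open FirstOrder Cardinal Set

namespace Vale.Agent.P307.R2.H541

open Vale.Agent.P307 Vale.Agent.P307.H304 Vale.Agent.P307.R2.H287 Vale.Agent.P307.R2.H1
  Vale.Agent.P307.R2.H971 Vale.Agent.P307.R2.H804 Language.Structure Language.Substructure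

variable {L : Language.{u, u}} {K : AEC L} {ℓ θ Λ : Cardinal.{u}}
  {κf α : Cardinal.{u} → Cardinal.{u}} {C : Type u} [L.Structure C]

section

variable (h₀ : BasePt K ℓ κf α θ) (hK : K.IsLS ℓ)
  (hunb : ∀ ν, ν < κf ν ∧ K.CategoricalIn (κf ν)) (hst : Stab K ℓ α (H287.thr κf))
  (hCm : K.mem C) (hs : Sat K θ C) (hCc : #C = Order.succ θ)

include h₀ hK hCm hCc

omit h₀ hCm hCc in
theorem inst_ls' {D : L.Substructure C} (hD : K.le D) {A : Set C} (hA : A ⊆ D) :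
    ∃ R : L.Substructure C, K.le R ∧ #R ≤ max #A ℓ ∧ A ⊆ R ∧ (R : Set C) ⊆ D := by
  obtain ⟨R, h1, h2, h3⟩ := hK.2.2 D (K.mem_of_le _ hD).1 (Subtype.val ⁻¹' A)
  refine ⟨R.map D.subtype.toHom, K.le_trans D R h1 hD, ?_, ?_, ?_⟩
  · have h4 : #(R.map D.subtype.toHom : L.Substructure C) ≤ #R := mk_image_le
    refine (h4.trans h3).trans (add_le_of_le (hK.1.trans (le_max_right _ _)) ?_
      (le_max_right _ _))
    exact (mk_preimage_of_injective _ _ Subtype.val_injective).trans (le_max_left _ _)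
  · intro a ha
    exact ⟨⟨a, hA ha⟩, h2 ha, rfl⟩
  · rintro _ ⟨a, -, rfl⟩
    exact a.2

include hunb hst hs

/-- The class `T` is invariant. -/
theorem pg_T_inv : ∀ g ∈ (pg h₀ hK hunb hst hCm hs hCc).G,
    ∀ R ∈ (pg h₀ hK hunb hst hCm hs hCc).T, g '' R ∈ (pg h₀ hK hunb hst hCm hs hCc).T := by
  rintro g ⟨e, he⟩ R ⟨D, h1, h2, rfl⟩
  refine ⟨D.map e.toHom, K.le_iso e D h1, ?_, ?_⟩
  · have h4 : #(D.map e.toHom : L.Substructure C) ≤ #D := mk_image_le
    exact h4.trans_lt h2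
  · rw [coe_map]
    exact image_congr fun x _ => he x

/-- Unions of sequences of strong submodels. -/
theorem pg_union (R : ℕ → Set C) (hR : Monotone R)
    (hRT : ∀ n, ∃ D : L.Substructure C, K.le D ∧ (D : Set C) = R n) :
    ∃ D : L.Substructure C, K.le D ∧ (D : Set C) = ⋃ n, R n := by
  choose D hD1 hD2 using hRT
  let S : ULift.{u} ℕ → L.Substructure C := fun n => D n.down
  have hS : ∀ i j : ULift.{u} ℕ, i ≤ j → S i ≤ S j := by
    intro i j hij x hx
    have h1 : x ∈ (D i.down : Set C) := hx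
    rw [hD2] at h1
    have h2 : x ∈ R j.down := hR hij h1
    rw [← hD2] at h2
    exact h2
  refine ⟨⨆ n, S n, K.chain_smooth S hS fun i => hD1 _, ?_⟩
  ext x
  have h1 : x ∈ ((⨆ n, S n : L.Substructure C) : Set C) ↔ ∃ n, x ∈ S n :=
    Language.Substructure.mem_iSup_of_directed (directed_of_isDirected_le hS)
  rw [h1, mem_iUnion]
  constructor
  · rintro ⟨n, hn⟩
    refine ⟨n.down, ?_⟩
    rw [← hD2]
    exact hn
  · rintro ⟨n, hn⟩
    refine ⟨⟨n⟩, ?_⟩
    rw [← hD2] at hn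
    exact hn

/-- **Atomic models over a model and finitely many points.** -/
theorem pg_di1 (hΛ : BasePt K ℓ κf α Λ) (hθΛ : θ < Λ) {D : L.Substructure C} (hD : K.le D)
    (hDc : #D = θ) {κ : Type u} [Finite κ] (v : κ → C) :
    ∃ N, (pg h₀ hK hunb hst hCm hs hCc).Atomic N (range v ∪ (D : Set C)) := by
  have hθ := aleph0_le_pt h₀ hK
  have hvc : #(range v) < ℵ₀ := lt_aleph0_iff_set_finite.2 (finite_range v)
  refine PG.exists_atomic_of_dense (pg h₀ hK hunb hst hCm hs hCc) (ℓ := ℓ) ?_ h₀.pt.lt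
    (pg_T_inv h₀ hK hunb hst hCm hs hCc) ?_ ?_ ?_
  · refine le_antisymm ((mk_union_le _ _).trans (add_le_of_le hθ (hvc.le.trans hθ) hDc.le)) ?_
    exact hDc.ge.trans (mk_le_mk_of_subset subset_union_right)
  · rintro N ⟨E, h1, h2, rfl⟩ A hA hAc
    obtain ⟨R, h3, h4, h5, h6⟩ := inst_ls' hK h1 hA
    exact ⟨R, ⟨R, h3, h4.trans_lt (max_lt hAc h₀.pt.lt), rfl⟩, h5, h6, h4⟩
  · intro R hR hRT hRc
    obtain ⟨E, h1, h2⟩ := pg_union h₀ hK hunb hst hCm hs hCc R hR fun n => by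
      obtain ⟨E, h1, -, h3⟩ := hRT n
      exact ⟨E, h1, h3⟩
    refine ⟨E, h1, ?_, h2⟩
    have : #(E : Set C) = θ := by
      rw [h2]
      exact hRc
    exact this
  · intro ν₁ hν₁
    change ν₁ < θ at hν₁
    let ν₀ : Cardinal.{u} := max ℓ ν₁
    have hν₀ : ν₀ < θ := max_lt h₀.pt.lt hν₁
    have hℓν₀ : ℓ ≤ ν₀ := le_max_left _ _
    obtain ⟨ν, μ, ρ, h1, h2, hl⟩ := exists_lvl h₀ (σ := tB α ν₀) (h₀.tb ν₀ hν₀)
    have hρθ : thr κf ρ < θ := h₀.pt.thr ρ hl.lt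
    obtain ⟨N, hN, hNc, hDN, hvN, hdom⟩ := exists_dom_at h₀ hΛ hθΛ hst hK hunb hl hρθ hCm hCc hs
      D hD hDc v
    refine ⟨N, ⟨N, hN, hNc, rfl⟩, ?_, fun E hE hEc => ?_⟩
    · rintro x (⟨k, rfl⟩ | hx)
      · exact hvN k
      · exact hDN hx
    · have hκ : #κ ≤ ν₀ := (lt_aleph0_of_finite κ).le.trans (hK.1.trans hℓν₀)
      obtain ⟨B, hB, hBD, hBc, hiso⟩ := exists_isol h₀ hK hunb hl hρθ hℓν₀ h1 hCm hCc hs D hD hDc
        hκ v (N := (N : Set C)) hvN hdom (ι := E) (hEc.trans (le_max_right _ _))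
        (fun e => (e : C)) (fun e => hE e.2)
      refine ⟨range v ∪ (B : Set C), union_subset_union_right _ hBD, ?_, ?_⟩
      · exact (mk_union_le _ _).trans_lt (add_lt_of_lt hθ (hvc.trans_le hθ) hBc)
      · rintro g ⟨k, hk⟩ hgB A hA hAc
        obtain ⟨h, h3, h4, h5⟩ := hiso k (fun x hx => by
          rw [hk]
          exact hgB x (Or.inr hx)) (fun i => by
          rw [hk]
          exact hgB _ (Or.inl ⟨i, rfl⟩))
        refine ⟨h.toEquiv, mem_autG h, fun a ha => ?_, fun e he => ?_⟩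
        · rcases hA ha with ⟨i, rfl⟩ | ha
          · exact h4 i
          · exact h3 a ha
        · exact (h5 ⟨e, he⟩).trans (hk e)

end

end Vale.Agent.P307.R2.H541
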