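import Vale.Agent.P307.R2.H541.Uq
import Vale.Agent.P307.R2.H804.Descent
import Vale.Agent.P307.R2.H514.AutSmall
import Vale.Agent.P307.R2.H913.Dir

/-!
The saturated member of size `θ⁺` as a permutation geometry.
-/

set_option linter.unusedSectionVars false

universe u

open FirstOrder Cardinal Set

namespace Vale.Agent.P307.R2.H541

open Vale.Agent.P307 Vale.Agent.P307.H304 Vale.Agent.P307.R2.H287 Vale.Agent.P307.R2.H1
  Vale.Agent.P307.R2.H971 Language.Structure Language.Substructure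

variable {L : Language.{u, u}} {K : AEC L} {ℓ θ : Cardinal.{u}}
  {κf α : Cardinal.{u} → Cardinal.{u}}

/-- The automorphisms of `C` as permutations. -/
def autG (L : Language.{u, u}) (C : Type u) [L.Structure C] : Subgroup (Equiv.Perm C) where
  carrier := {σ | ∃ e : C ≃[L] C, ∀ x, e x = σ x}
  mul_mem' := by
    rintro σ τ ⟨e, he⟩ ⟨f, hf⟩
    refine ⟨e.comp f, fun x => ?_⟩
    rw [Equiv.Perm.mul_apply, ← hf, ← he]
    rfl
  one_mem' := ⟨Language.Equiv.refl L C, fun _ => rfl⟩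
  inv_mem' := by
    rintro σ ⟨e, he⟩
    refine ⟨e.symm, fun x => ?_⟩
    apply e.injective
    rw [Language.Equiv.apply_symm_apply, he]
    exact (σ.apply_symm_apply x).symm

theorem mem_autG {C : Type u} [L.Structure C] (e : C ≃[L] C) : e.toEquiv ∈ autG L C :=
  ⟨e, fun _ => rfl⟩

theorem exists_filtration' {C : Type u} (hθ : ℵ₀ ≤ θ) (hcof : θ.ord.cof = ℵ₀) (X : Set C)
    (hX : #X ≤ θ) : ∃ Y : ℕ → Set C, Monotone Y ∧ (∀ n, #(Y n) < θ) ∧ ⋃ n, Y n = X := by
  rcases hX.lt_or_eq with hX | hX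
  · refine ⟨fun _ => X, monotone_const, fun _ => hX, iUnion_const X⟩
  · obtain ⟨A, hA1, hA2, hA3⟩ := exists_filtration hX hθ hcof
    refine ⟨fun n => Subtype.val '' A n, fun n m h => image_mono (hA1 h), fun n =>
      mk_image_le.trans_lt (hA2 n), ?_⟩
    ext x
    constructor
    · intro hx
      obtain ⟨n, y, -, rfl⟩ := mem_iUnion.1 hx
      exact y.2
    · intro hx
      obtain ⟨n, hn⟩ := hA3 ⟨x, hx⟩
      exact mem_iUnion.2 ⟨n, ⟨x, hx⟩, hn, rfl⟩

theorem coe_map {C : Type u} [L.Structure C] (e : C ≃[L] C) (D : L.Substructure C) :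
    ((D.map e.toHom : L.Substructure C) : Set C) = e '' D := rfl

theorem mk_coe_eq {C : Type u} [L.Structure C] {D : L.Substructure C} {N : Set C}
    (h : (D : Set C) = N) : #D = #N := by
  subst h
  rfl

section

variable {C : Type u} [L.Structure C] (h₀ : BasePt K ℓ κf α θ) (hK : K.IsLS ℓ)
  (hunb : ∀ ν, ν < κf ν ∧ K.CategoricalIn (κf ν)) (hst : Stab K ℓ α (thr κf))
  (hCm : K.mem C) (hs : Sat K θ C) (hCc : #C = Order.succ θ)

include h₀ hK

theorem aleph0_le_pt : ℵ₀ ≤ θ := hK.1.trans h₀.pt.lt.le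

include hunb hst hCm hs hCc

/-- Tuples with the same type correspond under an element of the group. -/
theorem exists_mem_autG {σ : Cardinal.{u}} (hσ : ℓ ≤ σ) (hσθ : σ < θ) {P : Type u} (hP : #P ≤ σ)
    (r s : P → C) (h : EqS L (α σ) r s) : ∃ g ∈ autG L C, ∀ z, g (r z) = s z := by
  obtain ⟨g, hg⟩ := H514.exists_aut_small h₀ hK hunb hst hσ hσθ hCm hCm hCc hCc hs hs hP r s h
  exact ⟨g.toEquiv, mem_autG g, hg⟩

/-- Strong submodels of size `θ` realize the small types. -/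
theorem inst_sat {D : L.Substructure C} (hD : K.le D) (hDc : #D = θ) {A B : Set C}
    (hA : A ⊆ D) (hAc : #A < θ) (hBc : #B < θ) :
    ∃ g ∈ autG L C, (∀ a ∈ A, g a = a) ∧ ∀ b ∈ B, g b ∈ D := by
  have hθ := aleph0_le_pt h₀ hK
  let σ : Cardinal.{u} := max ℓ (#A + #B)
  have hσ : ℓ ≤ σ := le_max_left _ _
  have hσθ : σ < θ := max_lt h₀.pt.lt (add_lt_of_lt hθ hAc hBc)
  have hσα : σ ≤ α σ := (hst σ hσ).1
  have hAB : #(A ⊕ B) ≤ σ := by
    rw [mk_sum, lift_id, lift_id]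
    exact le_max_right _ _
  have hAσ : #A ≤ σ := (self_le_add_right _ _).trans (le_max_right _ _)
  have hBσ : #B ≤ σ := (self_le_add_left _ _).trans (le_max_right _ _)
  have h1 := H804.refl_of_le hK hunb (hσ.trans hσα) hD
    ((h₀.pt.thr _ (h₀.al σ hσθ)).le.trans hDc.ge)
  obtain ⟨y', h2, h3⟩ := h1 A B (hAσ.trans hσα) (hBσ.trans hσα) (fun a => a) (fun a => hA a.2)
    (fun b => b)
  obtain ⟨g, hg, hg'⟩ := exists_mem_autG h₀ hK hunb hst hCm hs hCc hσ hσθ hAB
    (Sum.elim (fun a : A => (a : C)) fun b : B => (b : C))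
    (Sum.elim (fun a : A => (a : C)) y') h3.symm
  refine ⟨g, hg, fun a ha => hg' (Sum.inl ⟨a, ha⟩), fun b hb => ?_⟩
  have h4 : g b = y' ⟨b, hb⟩ := hg' (Sum.inr ⟨b, hb⟩)
  rw [h4]
  exact h2 _

omit hunb hst hs hCc hCm in
theorem inst_ls {D : L.Substructure C} (hD : K.le D) {A : Set C} (hA : A ⊆ D) (hAc : #A < θ) :
    ∃ R : L.Substructure C, K.le R ∧ #R < θ ∧ A ⊆ R ∧ (R : Set C) ⊆ D := by
  have hθ := aleph0_le_pt h₀ hK
  obtain ⟨R, h1, h2, h3⟩ := hK.2.2 D (K.mem_of_le _ hD).1 (Subtype.val ⁻¹' A)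
  refine ⟨R.map D.subtype.toHom, K.le_trans D R h1 hD, ?_, ?_, ?_⟩
  · have h4 : #(R.map D.subtype.toHom : L.Substructure C) ≤ #R := mk_image_le
    refine h4.trans_lt (h3.trans_lt (add_lt_of_lt hθ ?_ h₀.pt.lt))
    exact (mk_preimage_of_injective _ _ Subtype.val_injective).trans_lt hAc
  · intro a ha
    exact ⟨⟨a, hA ha⟩, h2 ha, rfl⟩
  · rintro _ ⟨a, -, rfl⟩
    exact a.2

omit hunb hst in
/-- Unions of coherent sequences of automorphisms. -/
theorem inst_lim (R : ℕ → L.Substructure C) (hR : Monotone R) (hRK : ∀ n, K.le (R n))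
    (D : L.Substructure C) (hDc : #D = θ) (hDR : (⋃ n, (R n : Set C)) = D)
    (g : ℕ → (C ≃[L] C)) (hg : ∀ n, ∀ a ∈ R n, g (n + 1) a = g n a) :
    ∃ e : C ≃[L] C, ∀ n, ∀ a ∈ R n, e a = g n a := by
  have hgm : ∀ n m, n ≤ m → ∀ a ∈ R n, g m a = g n a := by
    intro n m hnm
    induction m, hnm using Nat.le_induction with
    | base => exact fun a _ => rfl
    | succ m hnm ih => exact fun a ha => by rw [hg m a (hR hnm ha), ih a ha]
  let S : ULift.{u} ℕ → L.Substructure C := fun n => R n.down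
  let T : ULift.{u} ℕ → L.Substructure C := fun n => (R n.down).map (g n.down).toHom
  have hS : Monotone S := fun n m h => hR h
  have hT : Monotone T := by
    rintro n m h _ ⟨a, ha, rfl⟩
    refine ⟨a, hR h ha, ?_⟩
    exact hgm n.down m.down h a ha
  have hTK : ∀ n, K.le (T n) := fun n => K.le_iso (g n.down) (R n.down) (hRK _)
  have hSK : ∀ n, K.le (S n) := fun n => hRK _
  have hex : ∀ n : ULift.{u} ℕ, ∃ e : S n ≃[L] T n, ∀ x, (e x : C) = g n.down x := by
    intro n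
    obtain ⟨e, he⟩ := IsPI.exists_equiv_sub (L := L) (R := {p : C × C | p.1 ∈ R n.down ∧
      g n.down p.1 = p.2}) (by
        have h1 := isPI_gr (g n.down).toEmbedding (R n.down : Set C)
        refine h1.mono ?_
        rintro ⟨x, y⟩ ⟨h2, h3⟩
        exact mem_gr.2 ⟨h2, h3.symm⟩) (S n) (T n) (fun x hx => ⟨g n.down x, ⟨x, hx, rfl⟩, hx, rfl⟩)
      (by
        rintro _ ⟨x, hx, rfl⟩
        exact ⟨x, hx, hx, rfl⟩)
    exact ⟨e, fun x => ((he x).2).symm⟩
  choose e he using hex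
  obtain ⟨E, hE⟩ := H913.exists_equiv_iSup S T hS hT e (by
    intro n m h x
    rw [he, he]
    exact hgm n.down m.down h x x.2)
  have hSD : (⨆ n, S n : L.Substructure C) = D := by
    apply SetLike.coe_injective
    ext x
    have h1 : x ∈ (⨆ n, S n : L.Substructure C) ↔ ∃ n, x ∈ S n :=
      Language.Substructure.mem_iSup_of_directed (directed_of_isDirected_le hS)
    rw [SetLike.mem_coe, h1, ← hDR, mem_iUnion]
    exact ⟨fun ⟨n, hn⟩ => ⟨n.down, hn⟩, fun ⟨n, hn⟩ => ⟨⟨n⟩, hn⟩⟩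
  have hSle : K.le (⨆ n, S n) := AEC.le_iSup_directed S hS hSK
  have hTle : K.le (⨆ n, T n) := AEC.le_iSup_directed T hT hTK
  have hSc : #(⨆ n, S n : L.Substructure C) = θ := by rw [hSD, hDc]
  obtain ⟨k, hk⟩ := hs.exists_aut hK h₀.pt.lt.le hCc (⨆ n, S n) (⨆ n, T n) hSle hTle hSc E
  refine ⟨k, fun n a ha => ?_⟩
  have h1 := hk ⟨a, le_iSup S ⟨n⟩ ha⟩
  refine h1.trans ?_
  have h2 := hE ⟨n⟩ ⟨a, ha⟩
  refine h2.trans ?_
  exact he ⟨n⟩ ⟨a, ha⟩

end

/-- The saturated member of size `θ⁺` as a permutation geometry. -/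
def pg {C : Type u} [L.Structure C] (h₀ : BasePt K ℓ κf α θ) (hK : K.IsLS ℓ)
    (hunb : ∀ ν, ν < κf ν ∧ K.CategoricalIn (κf ν)) (hst : Stab K ℓ α (thr κf))
    (hCm : K.mem C) (hs : Sat K θ C) (hCc : #C = Order.succ θ) : PG C where
  G := autG L C
  χ := θ
  S := {N | ∃ D : L.Substructure C, K.le D ∧ #D = θ ∧ (D : Set C) = N}
  T := {N | ∃ D : L.Substructure C, K.le D ∧ #D < θ ∧ (D : Set C) = N}
  hχ := aleph0_le_pt h₀ hK
  cof := fun X hX => exists_filtration' (aleph0_le_pt h₀ hK) h₀.pt.cof X hX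
  S_card := by
    rintro N ⟨D, -, h, rfl⟩
    exact h
  S_inv := by
    rintro g N ⟨e, he⟩ ⟨D, h1, h2, rfl⟩
    refine ⟨D.map e.toHom, K.le_iso e D h1, ?_, ?_⟩
    · rw [← h2]
      exact mk_image_eq e.injective
    · rw [coe_map]
      exact image_congr fun x _ => he x
  T_card := by
    rintro N ⟨D, -, h, rfl⟩
    exact h
  ls := by
    rintro N A ⟨D, h1, -, rfl⟩ hA hAc
    obtain ⟨R, h2, h3, h4, h5⟩ := inst_ls h₀ hK h1 hA hAc
    exact ⟨R, ⟨R, h2, h3, rfl⟩, h4, h5⟩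
  sat := by
    rintro N A B ⟨D, h1, h2, rfl⟩ hA hAc hBc
    exact inst_sat h₀ hK hunb hst hCm hs hCc h1 h2 hA hAc hBc
  lim := by
    intro R hR hRT hRS g hg hgg
    choose D hD1 hD2 hD3 using hRT
    obtain ⟨E, hE1, hE2, hE3⟩ := hRS
    choose e he using hg
    obtain ⟨k, hk⟩ := inst_lim h₀ hK hCm hs hCc D (fun n m h => by
      have := hR h
      rw [← hD3 n, ← hD3 m] at this
      exact this) hD1 E hE2 (by
        rw [hE3]
        exact iUnion_congr fun n => hD3 n) e (fun n a ha => by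
        rw [he, he]
        exact hgg n a (by rw [← hD3 n]; exact ha))
    refine ⟨k.toEquiv, mem_autG k, fun n a ha => ?_⟩
    rw [← he n a]
    exact hk n a (by
      have : a ∈ (D n : Set C) := by rwa [hD3 n]
      exact this)

end Vale.Agent.P307.R2.H541
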