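import Vale.Agent.P307.R2.H541.Inst

/-!
Symmetry and small bases for the independence of the saturated member.
-/

set_option linter.unusedSectionVars false

universe u

open FirstOrder Cardinal Set

namespace Vale.Agent.P307.R2.H541

open Vale.Agent.P307 Vale.Agent.P307.H304 Vale.Agent.P307.R2.H287 Vale.Agent.P307.R2.H1
  Vale.Agent.P307.R2.H971 Vale.Agent.P307.R2.H804 Language.Structure Language.Substructure

variable {L : Language.{u, u}} {K : AEC L} {ℓ θ : Cardinal.{u}}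
  {κf α : Cardinal.{u} → Cardinal.{u}} {C : Type u} [L.Structure C]

/-- Levels above a given small cardinal. -/
theorem exists_lvl (h₀ : BasePt K ℓ κf α θ) {σ : Cardinal.{u}} (hσ : σ < θ) :
    ∃ ν μ ρ, σ ≤ ν ∧ α ν ≤ μ ∧ Lvl ℓ κf α ν μ ρ θ := by
  let ν : Cardinal.{u} := max ℓ σ
  have hν : ν < θ := max_lt h₀.pt.lt hσ
  have hℓν : ℓ ≤ ν := le_max_left _ _
  let μ : Cardinal.{u} := max (max (tB α ν) (α ν)) ν
  have hμ : μ < θ := max_lt (max_lt (h₀.tb ν hν) (h₀.al ν hν)) hν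
  have hlim : limB κf μ < θ := h₀.pt.lim μ hμ
  have hop : opB κf μ < θ := (opB_le_limB κf μ).trans_lt hlim
  have hsucc : Order.succ (opB κf μ) < θ :=
    (Order.succ_le_of_lt (cantor (opB κf μ))).trans_lt (h₀.pow _ hop)
  let ρ : Cardinal.{u} := max (Order.succ (opB κf μ)) (limB κf μ)
  have hρ : ρ < θ := max_lt hsucc hlim
  exact ⟨ν, μ, ρ, le_max_right _ _, (le_max_right _ _).trans (le_max_left _ _),
    hℓν, (le_max_left _ _).trans (le_max_left _ _), le_max_right _ _, le_max_left _ _,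
    le_max_right _ _, hρ, (h₀.pt.thr ρ hρ).le, (h₀.pt.thr μ hμ).le, (h₀.pt.thr _ hop).le⟩

section

variable (h₀ : BasePt K ℓ κf α θ) (hK : K.IsLS ℓ)
  (hunb : ∀ ν, ν < κf ν ∧ K.CategoricalIn (κf ν)) (hst : Stab K ℓ α (H287.thr κf))
  (hCm : K.mem C) (hs : Sat K θ C) (hCc : #C = Order.succ θ)

include h₀ hK hunb hst hCm hs hCc

/-- From the group to convergence. -/
theorem ind_of_pg {D : L.Substructure C} (hD : K.le D) (hDc : #D = θ) {A B : Set C}
    (hI : (pg h₀ hK hunb hst hCm hs hCc).Ind (D : Set C) A B) {ν μ ρ : Cardinal.{u}}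
    (hl : Lvl ℓ κf α ν μ ρ θ) {ι ζ : Type u} (hι : #ι ≤ μ) (hζ : #ζ ≤ μ) (b : ι → C)
    (hb : ∀ i, b i ∈ (D : Set C) ∪ B) (a : ζ → C) (ha : ∀ z, a z ∈ (D : Set C) ∪ A) :
    H804.Ind L κf μ (D : Set C) (range a) b := by
  have hθ := aleph0_le_pt h₀ hK
  have hμθ := hl.μΛ hunb
  have hlim : limB κf μ < θ := hl.limB.trans_lt hl.lt
  obtain ⟨M, hM, hMA, hMc⟩ := exists_sub_card hK h₀.pt.lt.le hCm
    ((Order.le_succ θ).trans hCc.ge) ((D : Set C) ∪ range a)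
    ((mk_union_le _ _).trans (add_le_of_le hθ hDc.le (mk_range_le.trans (hζ.trans hμθ.le))))
  refine ind_of_coh h₀ hK hunb hl M hM hMc hι b hMA ?_
  intro η y hη hy
  obtain ⟨g, ⟨e, he⟩, h1, h2⟩ := hI (range y ∪ (range b ∩ D)) (by
    rintro _ (⟨z, rfl⟩ | h)
    · rcases hy z with h | ⟨z', hz'⟩
      · exact Or.inl h
      · rw [← hz']
        exact ha z'
    · exact Or.inl h.2) (by
    refine (mk_union_le _ _).trans_lt (add_lt_of_lt hθ (mk_range_le.trans_lt (hη.trans_lt hlim)) ?_)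
    exact (mk_le_mk_of_subset inter_subset_left).trans_lt (mk_range_le.trans_lt
      (hι.trans_lt hμθ))) (range b ∩ B) inter_subset_right
      ((mk_le_mk_of_subset inter_subset_left).trans_lt (mk_range_le.trans_lt
      (hι.trans_lt hμθ)))
  have hμ0 := hl.hμ hK
  refine ⟨fun i => e (b i), fun i => ?_, fun ξ f hξ => ?_⟩
  · change e (b i) ∈ (D : Set C)
    rcases hb i with h | h
    · rw [he, h1 _ (Or.inr ⟨⟨i, rfl⟩, h⟩)]
      exact h
    · rw [he]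
      exact h2 _ ⟨⟨i, rfl⟩, h⟩
  · have h3 := H804.EqS.equiv hμ0 (mk_sum_le' hμ0 hξ hι) e
      (Sum.elim (fun k => y (f k)) b)
    refine EqS.symm (h3.subset ?_)
    rintro _ ⟨k | i, rfl⟩
    · refine ⟨Sum.inl k, Prod.ext rfl ?_⟩
      change e (y (f k)) = y (f k)
      rw [he]
      exact h1 _ (Or.inl ⟨_, rfl⟩)
    · exact ⟨Sum.inr i, rfl⟩

theorem ind_of_pg' {D : L.Substructure C} (hD : K.le D) (hDc : #D = θ) {A B : Set C}
    (hI : (pg h₀ hK hunb hst hCm hs hCc).Ind (D : Set C) A B) {ν μ ρ : Cardinal.{u}}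
    (hl : Lvl ℓ κf α ν μ ρ θ) {ι ζ : Type u} (hι : #ι ≤ μ) (hζ : #ζ ≤ μ) (b : ι → C)
    (hb : ∀ i, b i ∈ (D : Set C) ∪ B) (a : ζ → C) (ha : ∀ z, a z ∈ (D : Set C) ∪ A) :
    H804.Ind L κf μ (D : Set C) (range b) a := by
  have h1 := ind_of_pg h₀ hK hunb hst hCm hs hCc hD hDc hI hl hι hζ b hb a ha
  have h2 := ind_empty h₀ hK hunb hl D hD hDc hζ a (D := (D : Set C)) Subset.rfl
    (refl_big h₀ hK hunb hl D hD hDc)
  exact Ind.symm hK hunb hl.hℓμ hCm (le_card_sat h₀ hK hunb hl hCc) hζ hι h2 h1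

/-- Symmetry. -/
theorem pg_sym {D : L.Substructure C} (hD : K.le D) (hDc : #D = θ) {A B : Set C}
    (hI : (pg h₀ hK hunb hst hCm hs hCc).Ind (D : Set C) A B) :
    (pg h₀ hK hunb hst hCm hs hCc).Ind (D : Set C) B A := by
  intro B' hB' hB'c A' hA' hA'c
  have hθ := aleph0_le_pt h₀ hK
  change #B' < θ at hB'c
  change #A' < θ at hA'c
  obtain ⟨ν, μ, ρ, h1, h2, hl⟩ := exists_lvl h₀ (σ := #B' + #A')
    (add_lt_of_lt hθ hB'c hA'c)
  have hBν : #B' ≤ ν := (self_le_add_right _ _).trans h1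
  have hAν : #A' ≤ ν := (self_le_add_left _ _).trans h1
  have hνθ : ν < θ := hl.νμ.trans_lt (hl.μΛ hunb)
  have h3 := ind_of_pg' h₀ hK hunb hst hCm hs hCc hD hDc hI hl (hBν.trans hl.νμ)
    (hAν.trans hl.νμ) (fun b : B' => (b : C)) (fun b => hB' b.2) (fun a : A' => (a : C))
    (fun a => Or.inr (hA' a.2))
  obtain ⟨c, hc, hc'⟩ := h3
  obtain ⟨x, hx⟩ := hc' B' (fun b => b) (hBν.trans hl.νμ) (fun b => Or.inr ⟨b, rfl⟩)
  have h4 := hx x le_rfl
  have hν0 : ℵ₀ ≤ ν := hK.1.trans hl.hℓ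
  have hνα : ν ≤ α ν := (hst ν hl.hℓ).1
  have h5 := EqS.mono (hν0.trans hνα) h2 h4
    (mk_sum_le' (hν0.trans hνα) (hBν.trans hνα) (hAν.trans hνα))
  obtain ⟨g, hg, hg'⟩ := exists_mem_autG h₀ hK hunb hst hCm hs hCc hl.hℓ hνθ
    (mk_sum_le' hν0 hBν hAν) _ _ h5.symm
  refine ⟨g, hg, fun b hb => hg' (Sum.inl ⟨b, hb⟩), fun a ha => ?_⟩
  have h6 : g a = c x ⟨a, ha⟩ := hg' (Sum.inr ⟨a, ha⟩)
  rw [h6]
  exact hc x _

/-- The sequence of a small base converges over larger models. -/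
theorem conv_of_pg {D : L.Substructure C} (hD : K.le D) (hDc : #D = θ) {E Z : Set C}
    (hE : #E < θ) (hZ : #Z < θ)
    (hI : (pg h₀ hK hunb hst hCm hs hCc).Ind (D : Set C) E Z) {μ : Cardinal.{u}}
    (hμ : ℵ₀ ≤ μ) (hEμ : #E ≤ μ) (hop : opB κf μ < θ)
    {a : SuccTy (opB κf μ) → E → C} (ha : ∀ x i, a x i ∈ D)
    (hconv : Conv L μ a (fun e : E => (e : C)) (D : Set C)) :
    ∃ N : L.Substructure C, K.le N ∧ #N = θ ∧ D ≤ N ∧ Z ⊆ N ∧
      Conv L μ a (fun e : E => (e : C)) ((D : Set C) ∪ N) := by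
  have hθ := aleph0_le_pt h₀ hK
  obtain ⟨ν', μ', ρ', h1, h2, hl⟩ := exists_lvl h₀ (σ := #Z + #E + opB κf μ)
    (add_lt_of_lt hθ (add_lt_of_lt hθ hZ hE) hop)
  have hZE : #Z + #E ≤ ν' := (self_le_add_right _ _).trans h1
  have hopν : opB κf μ ≤ ν' := (self_le_add_left _ _).trans h1
  have hμν : μ ≤ ν' := (le_opB hunb μ).trans hopν
  have hZν : #Z ≤ ν' := (self_le_add_right _ _).trans hZE
  have hEν : #E ≤ ν' := (self_le_add_left _ _).trans hZE
  have hμμ : μ ≤ μ' := hμν.trans hl.νμ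
  have h3 := ind_of_pg' h₀ hK hunb hst hCm hs hCc hD hDc hI hl (hZν.trans hl.νμ)
    (hEν.trans hl.νμ) (fun z : Z => (z : C)) (fun z => Or.inr z.2) (fun e : E => (e : C))
    (fun e => Or.inr e.2)
  have hR := refl_big h₀ hK hunb hl D hD hDc
  have h4 : H804.Ind L κf μ' (D : Set C) (range (fun z : Z => (z : C)) ∪ D)
      (fun e : E => (e : C)) := h3.mono (union_subset subset_union_right subset_union_left)
  obtain ⟨N₀, hN₀, hN₀A, hN₀c⟩ := exists_sub_card hK h₀.pt.lt.le hCm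
    ((Order.le_succ θ).trans hCc.ge) ((D : Set C) ∪ Z)
    ((mk_union_le _ _).trans (add_le_of_le hθ hDc.le hZ.le))
  have hDN₀ : D ≤ N₀ := fun x hx => hN₀A (Or.inl hx)
  obtain ⟨σ, hσ1, hσ2, hσ3⟩ := exists_free_model h₀ hK hunb hl hCm hs hCc D hD hDc N₀ hN₀ hN₀c
    hDN₀ (κ := E) (ζ := Z) (mk_sum_le' (hK.1.trans hl.hℓ) hZν hEν) hZν hEν
    (fun e => (e : C)) (fun z => (z : C)) (fun z => hN₀A (Or.inr z.2)) (D := (D : Set C))
    Subset.rfl hR h4
  refine ⟨N₀.map σ.toHom, K.le_iso σ N₀ hN₀, ?_, ?_, ?_, ?_⟩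
  · rw [← hN₀c]
    exact mk_image_eq σ.injective
  · intro x hx
    exact ⟨x, hDN₀ hx, hσ1 x hx⟩
  · intro z hz
    exact ⟨z, hN₀A (Or.inr hz), hσ2 ⟨z, hz⟩⟩
  · obtain ⟨a', h5, h6⟩ := hσ3
    refine Conv.key hμ (hμμ.trans (hl.μρ hunb)) hEμ ?_ ?_ hR ha h5 hconv
      (h6.level hμ hμμ hEμ)
    · rw [mk_succTy]
      refine Order.succ_le_of_lt ?_
      refine lt_of_le_of_lt ((hopν.trans hl.νμ).trans (le_opB hunb μ')) ?_
      exact lt_of_lt_of_le (Order.lt_succ _) hl.opB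
    · rw [mk_succTy]
      exact hl.opB

/-- Small bases. -/
theorem pg_based {D : L.Substructure C} (hD : K.le D) (hDc : #D = θ) {E : Set C} (hE : #E < θ) :
    ∃ p ⊆ (D : Set C), #p < θ ∧ ∀ g ∈ autG L C, (∀ x ∈ p, g x = x) → ∀ Z : Set C, #Z < θ →
      (pg h₀ hK hunb hst hCm hs hCc).Ind (D : Set C) E Z →
      (pg h₀ hK hunb hst hCm hs hCc).Ind (D : Set C) E (g '' Z) →
      ∃ h ∈ autG L C, (∀ x ∈ p, h x = x) ∧ (∀ x ∈ E, h x = x) ∧ ∀ x ∈ Z, h x = g x := by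
  have hθ := aleph0_le_pt h₀ hK
  obtain ⟨ν, μ, ρ, h1, h2, hl⟩ := exists_lvl h₀ hE
  have hμ0 : ℵ₀ ≤ μ := hl.hμ hK
  have hEμ : #E ≤ μ := h1.trans hl.νμ
  have hop : opB κf μ < θ := (Order.lt_succ _).trans_le (hl.opB.trans hl.lt.le)
  have hR := refl_big h₀ hK hunb hl D hD hDc
  obtain ⟨a, ha, hconv⟩ := ind_empty h₀ hK hunb hl D hD hDc hEμ (fun e : E => (e : C))
    (D := (D : Set C)) Subset.rfl hR
  rw [union_empty] at hconv
  refine ⟨range fun q : SuccTy (opB κf μ) × E => a q.1 q.2, ?_, ?_, ?_⟩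
  · rintro _ ⟨q, rfl⟩
    exact ha _ _
  · refine mk_range_le.trans_lt ?_
    rw [mk_prod, lift_id, lift_id, mk_succTy]
    exact mul_lt_of_lt hθ (hl.opB.trans_lt hl.lt) hE
  · rintro g ⟨e, he⟩ hgp Z hZ hI hI'
    have hgZ : #(g '' Z) < θ := mk_image_le.trans_lt hZ
    obtain ⟨N1, hN1, hN1c, hDN1, hZN1, hc1⟩ := conv_of_pg h₀ hK hunb hst hCm hs hCc hD hDc hE hZ
      hI hμ0 hEμ hop ha hconv
    obtain ⟨N2, hN2, hN2c, hDN2, hZN2, hc2⟩ := conv_of_pg h₀ hK hunb hst hCm hs hCc hD hDc hE hgZ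
      hI' hμ0 hEμ hop ha hconv
    -- the image of the first
    have hN1' : K.le (N1.map e.toHom) := K.le_iso e N1 hN1
    have hN1c' : #(N1.map e.toHom : L.Substructure C) = θ := by
      rw [← hN1c]
      exact mk_image_eq e.injective
    have hc1' : Conv L μ a (fun x : E => e x) ((N1.map e.toHom : L.Substructure C) : Set C) := by
      have h3 := hc1.equiv hμ0 hEμ e
      have h4 : (fun (x : SuccTy (opB κf μ)) (i : E) => e (a x i)) = a := by
        funext x i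
        rw [he]
        exact hgp _ ⟨(x, i), rfl⟩
      rw [h4] at h3
      exact h3.mono (image_mono subset_union_right)
    -- a common extension
    obtain ⟨N4, hN4, hN4A, hN4c⟩ := exists_sub_card hK h₀.pt.lt.le hCm
      ((Order.le_succ θ).trans hCc.ge) ((N2 : Set C) ∪ (N1.map e.toHom : L.Substructure C))
      ((mk_union_le _ _).trans (add_le_of_le hθ hN2c.le hN1c'.le))
    have hDN4 : (D : Set C) ⊆ N4 := fun x hx => hN4A (Or.inl (hDN2 hx))
    obtain ⟨r, ⟨a', h5, h6⟩, h7⟩ := exists_free h₀ hK hunb hl hs N4 hN4 hN4c hEμ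
      (fun x : E => (x : C)) hDN4 hR
    have h8 : Conv L μ a r ((D : Set C) ∪ N4) := by
      refine Conv.key hμ0 (hl.μρ hunb) hEμ ?_ ?_ hR ha h5 (hconv.congr ?_) h6
      · rw [mk_succTy]
        exact hl.opB
      · rw [mk_succTy]
        exact hl.opB
      · intro ζ y hζ hy
        exact (h7 ζ y hζ hy).symm
    obtain ⟨g1, hg1, hg1'⟩ := exists_aut h₀ hK hunb hl hCm hs hCc N2 hN2 hN2c h1 r
      (fun x : E => (x : C)) (by
      intro ζ y hζ hy
      obtain ⟨x1, hx1⟩ := h8 ζ y hζ fun z => Or.inr (hN4A (Or.inl (hy z)))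
      obtain ⟨x2, hx2⟩ := hc2 ζ y hζ fun z => Or.inr (hy z)
      exact (hx1 _ (le_max_left x1 x2)).symm.trans (hx2 _ (le_max_right x1 x2)))
    obtain ⟨g2, hg2, hg2'⟩ := exists_aut h₀ hK hunb hl hCm hs hCc (N1.map e.toHom) hN1' hN1c' h1 r
      (fun x : E => e x) (by
      intro ζ y hζ hy
      obtain ⟨x1, hx1⟩ := h8 ζ y hζ fun z => Or.inr (hN4A (Or.inr (hy z)))
      obtain ⟨x2, hx2⟩ := hc1' ζ y hζ fun z => hy z
      exact (hx1 _ (le_max_left x1 x2)).symm.trans (hx2 _ (le_max_right x1 x2)))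
    have hinv : ∀ x y, g2 x = y → g2.symm y = x := by
      rintro x _ rfl
      exact Language.Equiv.symm_apply_apply g2 x
    refine ⟨((g1.comp g2.symm).comp e).toEquiv, mem_autG _, ?_, ?_, ?_⟩
    · intro x hx
      change g1 (g2.symm (e x)) = x
      have h9 : e x = x := by
        rw [he]
        exact hgp x hx
      have hxD : x ∈ D := by
        obtain ⟨q, rfl⟩ := hx
        exact ha _ _
      have h10 : g2 x = x := hg2 x ⟨x, hDN1 hxD, h9⟩
      rw [h9, hinv x x h10, hg1 x (hDN2 hxD)]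
    · intro x hx
      change g1 (g2.symm (e x)) = x
      rw [hinv (r ⟨x, hx⟩) (e x) (hg2' ⟨x, hx⟩), hg1' ⟨x, hx⟩]
    · intro x hx
      change g1 (g2.symm (e x)) = g x
      have h9 : e x = g x := he x
      have h10 : g2 (g x) = g x := hg2 _ ⟨x, hZN1 hx, h9⟩
      rw [h9, hinv _ _ h10, hg1 _ (hZN2 ⟨x, hx, rfl⟩)]

/-- The calculus of the saturated member. -/
theorem pg_calc : (pg h₀ hK hunb hst hCm hs hCc).Calc := by
  constructor
  · rintro P A B ⟨D, hD, hDc, rfl⟩ h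
    exact pg_sym h₀ hK hunb hst hCm hs hCc hD hDc h
  · rintro P E ⟨D, hD, hDc, rfl⟩ hE
    exact pg_based h₀ hK hunb hst hCm hs hCc hD hDc hE

end

end Vale.Agent.P307.R2.H541
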