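import Mathlib.SetTheory.Cardinal.Arithmetic
import Mathlib.Algebra.Group.Subgroup.Defs
import Mathlib.Algebra.Group.End

/-!
Isolated types in a homogeneous structure, as a calculus of permutation groups: lifting, prime
(atomic) models over arbitrary sets, their uniqueness and their embeddings.
-/

universe u

open Set Cardinal Function

namespace Vale.Agent.P307.R2.H541

/-- A sequence built step by step. -/
theorem exists_seq {α : Type*} (P : ℕ → α → Prop) (R : ℕ → α → α → Prop) (h0 : ∃ a, P 0 a)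
    (hs : ∀ n a, P n a → ∃ b, P (n + 1) b ∧ R n a b) :
    ∃ s : ℕ → α, (∀ n, P n (s n)) ∧ ∀ n, R n (s n) (s (n + 1)) := by
  classical
  obtain ⟨a₀, ha₀⟩ := h0
  choose! F hF using hs
  let s : ℕ → {p : ℕ × α // P p.1 p.2} := fun n => Nat.rec ⟨(0, a₀), ha₀⟩
    (fun _ p => ⟨(p.1.1 + 1, F p.1.1 p.1.2), (hF p.1.1 p.1.2 p.2).1⟩) n
  have hs1 : ∀ n, (s n).1.1 = n := by
    intro n
    induction n with
    | zero => rfl
    | succ n ih => exact congrArg (· + 1) ih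
  refine ⟨fun n => (s n).1.2, fun n => ?_, fun n => ?_⟩
  · have h := (s n).2
    rw [hs1 n] at h
    exact h
  · have h := (hF (s n).1.1 (s n).1.2 (s n).2).2
    rw [hs1 n] at h
    have h2 : (s (n + 1)).1.2 = F n (s n).1.2 := by
      change F (s n).1.1 (s n).1.2 = _
      rw [hs1 n]
    change R n (s n).1.2 (s (n + 1)).1.2
    rw [h2]
    exact h

/-- A group `G` of permutations of `C` (the automorphisms of a homogeneous model), a class `S` of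
subsets of size `χ` (the strong submodels of size `χ`) and a class `T` of small subsets (the small
strong submodels). -/
structure PG (C : Type u) where
  G : Subgroup (Equiv.Perm C)
  χ : Cardinal.{u}
  S : Set (Set C)
  T : Set (Set C)
  hχ : ℵ₀ ≤ χ
  cof : ∀ X : Set C, #X ≤ χ → ∃ Y : ℕ → Set C, Monotone Y ∧ (∀ n, #(Y n) < χ) ∧ ⋃ n, Y n = X
  S_card : ∀ {N}, N ∈ S → #N = χ
  S_inv : ∀ {g} {N}, g ∈ G → N ∈ S → g '' N ∈ S
  T_card : ∀ {R}, R ∈ T → #R < χ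
  ls : ∀ {N} {A : Set C}, N ∈ S → A ⊆ N → #A < χ → ∃ R ∈ T, A ⊆ R ∧ R ⊆ N
  sat : ∀ {N} {A B : Set C}, N ∈ S → A ⊆ N → #A < χ → #B < χ →
    ∃ g ∈ G, (∀ a ∈ A, g a = a) ∧ ∀ b ∈ B, g b ∈ N
  lim : ∀ R : ℕ → Set C, Monotone R → (∀ n, R n ∈ T) → (⋃ n, R n) ∈ S →
    ∀ g : ℕ → Equiv.Perm C, (∀ n, g n ∈ G) → (∀ n, ∀ a ∈ R n, g (n + 1) a = g n a) →
      ∃ h ∈ G, ∀ n, ∀ a ∈ R n, h a = g n a

namespace PG

variable {C : Type u} (M : PG C)

/-- The type of `E` over `B` isolates the type of `E` over `X`. -/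
def Isol (B X E : Set C) : Prop := ∀ g ∈ M.G, (∀ b ∈ B, g b = b) → ∀ A ⊆ X, #A < M.χ →
  ∃ h ∈ M.G, (∀ a ∈ A, h a = a) ∧ ∀ e ∈ E, h e = g e

/-- Small subsets of `Y` are reflected into `X` over small subsets of `X`. -/
def TV (X Y : Set C) : Prop := ∀ A ⊆ X, #A < M.χ → ∀ D ⊆ Y, #D < M.χ →
  ∃ g ∈ M.G, (∀ a ∈ A, g a = a) ∧ ∀ d ∈ D, g d ∈ X

/-- `f` preserves the types of the small subsets of `X`. -/
def LE (f : C → C) (X : Set C) : Prop := ∀ A ⊆ X, #A < M.χ → ∃ g ∈ M.G, ∀ a ∈ A, g a = f a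

/-- `N` is a model of size `χ` which contains `X` and is atomic over `X`. -/
structure Atomic (N X : Set C) : Prop where
  mem : N ∈ M.S
  sub : X ⊆ N
  iso : ∀ E ⊆ N, #E < M.χ → ∃ B ⊆ X, #B < M.χ ∧ M.Isol B X E

variable {M} {B X E : Set C}

theorem small_union {A B : Set C} (hA : #A < M.χ) (hB : #B < M.χ) : #(A ∪ B : Set C) < M.χ :=
  (mk_union_le A B).trans_lt (add_lt_of_lt M.hχ hA hB)

theorem small_subset {A B : Set C} (hAB : A ⊆ B) (hB : #B < M.χ) : #A < M.χ :=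
  (mk_le_mk_of_subset hAB).trans_lt hB

theorem small_finite {A : Set C} (hA : A.Finite) : #A < M.χ :=
  (lt_aleph0_iff_set_finite.2 hA).trans_le M.hχ

theorem small_image {A : Set C} (f : C → C) (hA : #A < M.χ) : #(f '' A) < M.χ :=
  mk_image_le.trans_lt hA

theorem small_inter_left {A : Set C} (B : Set C) (hA : #A < M.χ) : #(A ∩ B : Set C) < M.χ :=
  small_subset inter_subset_left hA

theorem inv_ap (g : Equiv.Perm C) (x : C) : g⁻¹ (g x) = x := g.symm_apply_apply x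

theorem ap_inv (g : Equiv.Perm C) (x : C) : g (g⁻¹ x) = x := g.apply_symm_apply x

theorem fix_inv {g : Equiv.Perm C} {a : C} (h : g a = a) : g⁻¹ a = a := by
  rw [Equiv.Perm.inv_eq_iff_eq]
  exact h.symm

namespace Isol

theorem mono_base {B' : Set C} (h : M.Isol B X E) (hB : B ⊆ B') : M.Isol B' X E :=
  fun g hg hgB => h g hg fun b hb => hgB b (hB hb)

theorem mono {X' : Set C} (h : M.Isol B X E) (hX : X' ⊆ X) : M.Isol B X' E :=
  fun g hg hgB A hA hAc => h g hg hgB A (hA.trans hX) hAc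

theorem subset {E' : Set C} (h : M.Isol B X E) (hE : E' ⊆ E) : M.Isol B X E' := by
  intro g hg hgB A hA hAc
  obtain ⟨k, hk, h1, h2⟩ := h g hg hgB A hA hAc
  exact ⟨k, hk, h1, fun e he => h2 e (hE he)⟩

theorem self (hB : E ⊆ B) : M.Isol B X E := by
  intro g hg hgB A hA hAc
  exact ⟨1, M.G.one_mem, fun a _ => rfl, fun e he => (hgB e (hB he)).symm⟩

theorem union_self (h : M.Isol B X E) (hB : B ⊆ X) (hBc : #B < M.χ) : M.Isol B X (E ∪ B) := by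
  intro g hg hgB A hA hAc
  obtain ⟨k, hk, h1, h2⟩ := h g hg hgB (A ∪ B) (union_subset hA hB) (small_union hAc hBc)
  refine ⟨k, hk, fun a ha => h1 a (Or.inl ha), fun e he => ?_⟩
  rcases he with he | he
  · exact h2 e he
  · rw [h1 e (Or.inr he), hgB e he]

/-- Two realizations of an isolated type. -/
theorem smul (h : M.Isol B X E) {k : Equiv.Perm C} (hk : k ∈ M.G) (hkB : ∀ b ∈ B, k b = b) :
    M.Isol B X (k '' E) := by
  intro g hg hgB A hA hAc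
  obtain ⟨k1, hk1, h1, h1'⟩ := h k hk hkB A hA hAc
  obtain ⟨k2, hk2, h2, h2'⟩ := h (g * k) (M.G.mul_mem hg hk) (fun b hb => by
    rw [Equiv.Perm.mul_apply, hkB b hb, hgB b hb]) A hA hAc
  refine ⟨k2 * k1⁻¹, M.G.mul_mem hk2 (M.G.inv_mem hk1), fun a ha => ?_, ?_⟩
  · rw [Equiv.Perm.mul_apply, fix_inv (h1 a ha), h2 a ha]
  · rintro _ ⟨e, he, rfl⟩
    rw [Equiv.Perm.mul_apply, ← h1' e he, inv_ap, h2' e he,
      Equiv.Perm.mul_apply, h1' e he]

/-- Lifting. -/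
theorem lift {Y : Set C} (h : M.Isol B X E) (hXY : M.TV X Y) (hB : B ⊆ X) (hBc : #B < M.χ) :
    M.Isol B Y E := by
  intro g hg hgB A hA hAc
  obtain ⟨k, hk, hkB, hkA⟩ := hXY B hB hBc A hA hAc
  have hkA' : k '' A ⊆ X := by
    rintro _ ⟨a, ha, rfl⟩
    exact hkA a ha
  obtain ⟨k1, hk1, h1, h1'⟩ := h k hk hkB (k '' A) hkA' (small_image k hAc)
  obtain ⟨k2, hk2, h2, h2'⟩ := h (k * g) (M.G.mul_mem hk hg) (fun b hb => by
    rw [Equiv.Perm.mul_apply, hgB b hb, hkB b hb]) (k '' A) hkA' (small_image k hAc)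
  refine ⟨k⁻¹ * k2 * k1⁻¹ * k, M.G.mul_mem (M.G.mul_mem (M.G.mul_mem (M.G.inv_mem hk) hk2)
    (M.G.inv_mem hk1)) hk, fun a ha => ?_, fun e he => ?_⟩
  · simp only [Equiv.Perm.mul_apply]
    rw [fix_inv (h1 (k a) (mem_image_of_mem k ha)), h2 (k a) (mem_image_of_mem k ha),
      inv_ap]
  · simp only [Equiv.Perm.mul_apply]
    rw [← h1' e he, inv_ap, h2' e he, Equiv.Perm.mul_apply,
      inv_ap]

/-- Transitivity. -/
theorem trans {B' E' : Set C} (h : M.Isol B X E) (hE : #E < M.χ) (hB : B ⊆ X) (hBc : #B < M.χ)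
    (h' : M.Isol B' (X ∪ E) E') (hB' : B' ⊆ X ∪ E) (hBc' : #B' < M.χ) :
    M.Isol (B ∪ (B' ∩ X)) X (E ∪ E') := by
  intro g hg hgB A hA hAc
  have hA' : A ∪ (B ∪ (B' ∩ X)) ⊆ X := union_subset hA (union_subset hB inter_subset_right)
  obtain ⟨k1, hk1, h1, h1'⟩ := h g hg (fun b hb => hgB b (Or.inl hb)) (A ∪ (B ∪ (B' ∩ X))) hA'
    (small_union hAc (small_union hBc (small_inter_left X hBc')))
  obtain ⟨k2, hk2, h2, h2'⟩ := h' (k1⁻¹ * g) (M.G.mul_mem (M.G.inv_mem hk1) hg) (fun b hb => by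
      rw [Equiv.Perm.mul_apply]
      rcases hB' hb with hbX | hbE
      · rw [hgB b (Or.inr ⟨hb, hbX⟩)]
        exact fix_inv (h1 b (Or.inr (Or.inr ⟨hb, hbX⟩)))
      · rw [← h1' b hbE, inv_ap]) (A ∪ E)
    (union_subset (hA.trans subset_union_left) subset_union_right) (small_union hAc hE)
  refine ⟨k1 * k2, M.G.mul_mem hk1 hk2, fun a ha => ?_, fun e he => ?_⟩
  · rw [Equiv.Perm.mul_apply, h2 a (Or.inl ha), h1 a (Or.inl ha)]
  · rw [Equiv.Perm.mul_apply]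
    rcases he with he | he
    · rw [h2 e (Or.inr he), h1' e he]
    · rw [h2' e he, Equiv.Perm.mul_apply, ap_inv]

/-- A point of `X` with an isolated type over `X` is fixed. -/
theorem fixed {e : C} (h : M.Isol B X {e}) (he : e ∈ X) {g : Equiv.Perm C} (hg : g ∈ M.G)
    (hgB : ∀ b ∈ B, g b = b) : g e = e := by
  obtain ⟨k, -, h1, h2⟩ := h g hg hgB {e} (singleton_subset_iff.2 he)
    (small_finite (finite_singleton e))
  rw [← h2 e rfl, h1 e rfl]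

/-- A realization in `X` of the isolated type of a point is the point. -/
theorem eq_of_mem {e : C} (h : M.Isol B X {e}) {g : Equiv.Perm C} (hg : g ∈ M.G)
    (hgB : ∀ b ∈ B, g b = b) (he : g e ∈ X) : g e = e := by
  obtain ⟨k, -, h1, h2⟩ := h g hg hgB {g e} (singleton_subset_iff.2 he)
    (small_finite (finite_singleton _))
  exact (k.injective ((h2 e rfl).trans (h1 (g e) rfl).symm)).symm

end Isol

namespace TV

theorem mono {Y Y' : Set C} (h : M.TV X Y) (hY : Y' ⊆ Y) : M.TV X Y' :=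
  fun A hA hAc D hD hDc => h A hA hAc D (hD.trans hY) hDc

theorem trans {Y Z : Set C} (h : M.TV X Y) (h' : M.TV Y Z) (hXY : X ⊆ Y) : M.TV X Z := by
  intro A hA hAc D hD hDc
  obtain ⟨g1, hg1, h1, h1'⟩ := h' A (hA.trans hXY) hAc D hD hDc
  obtain ⟨g2, hg2, h2, h2'⟩ := h A hA hAc (g1 '' D) (by
    rintro _ ⟨d, hd, rfl⟩
    exact h1' d hd) (small_image g1 hDc)
  refine ⟨g2 * g1, M.G.mul_mem hg2 hg1, fun a ha => ?_, fun d hd => ?_⟩
  · rw [Equiv.Perm.mul_apply, h1 a ha, h2 a ha]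
  · exact h2' _ (mem_image_of_mem g1 hd)

end TV

theorem tv_of_mem {N Y : Set C} (hN : N ∈ M.S) : M.TV N Y :=
  fun _ hA hAc _ _ hDc => M.sat hN hA hAc hDc

/-! ### Extending maps -/

/-- The main step: `g` maps `E` as the isolated type wants, so it is compatible with `f`. -/
theorem Isol.compat {f : C → C} (h : M.Isol B X E) (hB : B ⊆ X) (hBc : #B < M.χ)
    (hf : M.LE f X) {g : Equiv.Perm C} (hg : g ∈ M.G) (hgB : ∀ b ∈ B, g b = f b) :
    ∀ A ⊆ X, #A < M.χ → ∃ h ∈ M.G, (∀ a ∈ A, h a = f a) ∧ ∀ e ∈ E, h e = g e := by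
  intro A hA hAc
  obtain ⟨k, hk, hkf⟩ := hf (A ∪ B) (union_subset hA hB) (small_union hAc hBc)
  obtain ⟨t, ht, h1, h2⟩ := h (k⁻¹ * g) (M.G.mul_mem (M.G.inv_mem hk) hg) (fun b hb => by
    rw [Equiv.Perm.mul_apply, hgB b hb, ← hkf b (Or.inr hb), inv_ap]) A hA hAc
  refine ⟨k * t, M.G.mul_mem hk ht, fun a ha => ?_, fun e he => ?_⟩
  · rw [Equiv.Perm.mul_apply, h1 a ha, hkf a (Or.inl ha)]
  · rw [Equiv.Perm.mul_apply, h2 e he, Equiv.Perm.mul_apply, ap_inv]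

/-- The same for a type isolated over the image. -/
theorem Isol.compat' {f : C → C} {B' F : Set C} (hB : B ⊆ X) (hBc : #B < M.χ)
    (h : M.Isol B' (f '' X) F) (hB' : f '' B = B')
    (hf : M.LE f X) {k : Equiv.Perm C} (hk : k ∈ M.G) (hkB : ∀ b ∈ B, k (f b) = b) :
    ∀ A ⊆ X, #A < M.χ → ∃ h ∈ M.G, (∀ a ∈ A, h a = f a) ∧ ∀ c ∈ F, h (k c) = c := by
  intro A hA hAc
  obtain ⟨k1, hk1, hkf⟩ := hf (A ∪ B) (union_subset hA hB) (small_union hAc hBc)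
  obtain ⟨t, ht, h1, h2⟩ := h (k1 * k) (M.G.mul_mem hk1 hk) (fun b hb => by
    rw [← hB'] at hb
    obtain ⟨b, hb, rfl⟩ := hb
    rw [Equiv.Perm.mul_apply, hkB b hb, hkf b (Or.inr hb)]) (f '' A) (image_mono hA)
      (small_image f hAc)
  refine ⟨t⁻¹ * k1, M.G.mul_mem (M.G.inv_mem ht) hk1, fun a ha => ?_, fun c hc => ?_⟩
  · rw [Equiv.Perm.mul_apply, hkf a (Or.inl ha)]
    exact fix_inv (h1 (f a) (mem_image_of_mem f ha))
  · rw [Equiv.Perm.mul_apply, ← Equiv.Perm.mul_apply, ← Equiv.Perm.mul_apply, mul_assoc,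
      Equiv.Perm.mul_apply, ← h2 c hc, inv_ap]

/-- A model is the union of an increasing sequence of small models. -/
theorem exists_filtration {N : Set C} (hN : N ∈ M.S) :
    ∃ R : ℕ → Set C, Monotone R ∧ (∀ n, R n ∈ M.T) ∧ ⋃ n, R n = N := by
  obtain ⟨Y, hY, hYc, hYN⟩ := M.cof N (M.S_card hN).le
  have hYs : ∀ n, Y n ⊆ N := fun n => by
    rw [← hYN]
    exact subset_iUnion Y n
  obtain ⟨R, hR, hRR⟩ := exists_seq (fun n (R : Set C) => R ∈ M.T ∧ Y n ⊆ R ∧ R ⊆ N)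
    (fun _ R R' => R ⊆ R') (by
      obtain ⟨R, h1, h2, h3⟩ := M.ls hN (hYs 0) (hYc 0)
      exact ⟨R, h1, h2, h3⟩) (by
      rintro n R ⟨h1, h2, h3⟩
      obtain ⟨R', h4, h5, h6⟩ := M.ls hN (A := R ∪ Y (n + 1)) (union_subset h3 (hYs _))
        (small_union (M.T_card h1) (hYc _))
      exact ⟨R', ⟨h4, subset_union_right.trans h5, h6⟩, subset_union_left.trans h5⟩)
  refine ⟨R, monotone_nat_of_le_succ hRR, fun n => (hR n).1, ?_⟩
  refine Subset.antisymm (iUnion_subset fun n => (hR n).2.2) ?_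
  rw [← hYN]
  exact iUnion_mono fun n => (hR n).2.1

/-- Atomic models embed into every model. -/
theorem Atomic.exists_embed {N N' : Set C} (hN : M.Atomic N X) {f : C → C} (hf : M.LE f X)
    (hN' : N' ∈ M.S) (hfX : ∀ x ∈ X, f x ∈ N') :
    ∃ h ∈ M.G, (∀ x ∈ X, h x = f x) ∧ ∀ a ∈ N, h a ∈ N' := by
  obtain ⟨R, hRm, hRT, hRN⟩ := exists_filtration hN.mem
  have hRs : ∀ n, R n ⊆ N := fun n => by
    rw [← hRN]
    exact subset_iUnion R n
  have step : ∀ n (g : Equiv.Perm C) (D : Set C), g ∈ M.G → D ⊆ N → #D < M.χ →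
      (∀ a ∈ D, g a ∈ N') →
      (∀ A ⊆ X, #A < M.χ → ∃ h ∈ M.G, (∀ a ∈ A, h a = f a) ∧ ∀ e ∈ D, h e = g e) →
      ∃ g' : Equiv.Perm C, (g' ∈ M.G ∧ (∀ a ∈ R n, g' a ∈ N') ∧
        ∀ A ⊆ X, #A < M.χ → ∃ h ∈ M.G, (∀ a ∈ A, h a = f a) ∧ ∀ e ∈ R n, h e = g' e) ∧
        ∀ a ∈ D, g' a = g a := by
    intro n g D hg hDN hDc hgD hgA
    obtain ⟨B, hBX, hBc, hB⟩ := hN.iso (R n) (hRs n) (M.T_card (hRT n))
    obtain ⟨h0, hh0, h0B, h0D⟩ := hgA B hBX hBc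
    obtain ⟨k, hk, hk1, hk2⟩ := M.sat hN' (A := f '' B ∪ g '' D) (B := h0 '' R n) (by
      refine union_subset ?_ ?_
      · rintro _ ⟨b, hb, rfl⟩
        exact hfX b (hBX hb)
      · rintro _ ⟨d, hd, rfl⟩
        exact hgD d hd) (small_union (small_image f hBc) (small_image g hDc))
      (small_image h0 (M.T_card (hRT n)))
    refine ⟨k * h0, ⟨M.G.mul_mem hk hh0, fun a ha => hk2 _ (mem_image_of_mem h0 ha), ?_⟩, ?_⟩
    · refine hB.compat hBX hBc hf (M.G.mul_mem hk hh0) fun b hb => ?_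
      rw [Equiv.Perm.mul_apply, h0B b hb]
      exact hk1 _ (Or.inl (mem_image_of_mem f hb))
    · intro a ha
      rw [Equiv.Perm.mul_apply, h0D a ha]
      exact hk1 _ (Or.inr (mem_image_of_mem g ha))
  obtain ⟨g, hg, hgg⟩ := exists_seq (fun n (g : Equiv.Perm C) => g ∈ M.G ∧
      (∀ a ∈ R n, g a ∈ N') ∧
        ∀ A ⊆ X, #A < M.χ → ∃ h ∈ M.G, (∀ a ∈ A, h a = f a) ∧ ∀ e ∈ R n, h e = g e)
    (fun n g g' => ∀ a ∈ R n, g' a = g a) (by
      obtain ⟨g', hg', -⟩ := step 0 1 ∅ M.G.one_mem (empty_subset N)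
        (small_finite finite_empty) (fun a ha => absurd ha (notMem_empty a)) (by
          intro A hA hAc
          obtain ⟨g, hg, hgf⟩ := hf A hA hAc
          exact ⟨g, hg, hgf, fun a ha => absurd ha (notMem_empty a)⟩)
      exact ⟨g', hg'⟩) (by
      rintro n g ⟨h1, h2, h3⟩
      exact step (n + 1) g (R n) h1 (hRs n) (M.T_card (hRT n)) h2 h3)
  obtain ⟨h, hh, hhg⟩ := M.lim R hRm hRT (by rw [hRN]; exact hN.mem) g (fun n => (hg n).1) hgg
  have hmem : ∀ a ∈ N, ∃ n, a ∈ R n := fun a ha => by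
    rw [← hRN] at ha
    exact mem_iUnion.1 ha
  refine ⟨h, hh, fun x hx => ?_, fun a ha => ?_⟩
  · obtain ⟨n, hn⟩ := hmem x (hN.sub hx)
    obtain ⟨k, -, hk1, hk2⟩ := (hg n).2.2 {x} (singleton_subset_iff.2 hx)
      (small_finite (finite_singleton x))
    rw [hhg n x hn, ← hk2 x hn, hk1 x rfl]
  · obtain ⟨n, hn⟩ := hmem a ha
    rw [hhg n a hn]
    exact (hg n).2.1 a hn

/-- Uniqueness of atomic models. -/
theorem Atomic.exists_iso {N N' : Set C} (hN : M.Atomic N X) {f : C → C} (hf : M.LE f X)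
    (hN' : M.Atomic N' (f '' X)) :
    ∃ h ∈ M.G, (∀ x ∈ X, h x = f x) ∧ h '' N = N' := by
  obtain ⟨R, hRm, hRT, hRN⟩ := exists_filtration hN.mem
  obtain ⟨R', hRm', hRT', hRN'⟩ := exists_filtration hN'.mem
  have hRs : ∀ n, R n ⊆ N := fun n => by
    rw [← hRN]
    exact subset_iUnion R n
  have hRs' : ∀ n, R' n ⊆ N' := fun n => by
    rw [← hRN']
    exact subset_iUnion R' n
  -- the positions
  let Q : Set C × Equiv.Perm C → Prop := fun p => p.1 ⊆ N ∧ #p.1 < M.χ ∧ p.2 ∈ M.G ∧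
    (∀ a ∈ p.1, p.2 a ∈ N') ∧
      ∀ A ⊆ X, #A < M.χ → ∃ h ∈ M.G, (∀ a ∈ A, h a = f a) ∧ ∀ e ∈ p.1, h e = p.2 e
  have forth : ∀ p, Q p → ∀ D ⊆ N, #D < M.χ → ∃ p', Q p' ∧ p.1 ⊆ p'.1 ∧ D ⊆ p'.1 ∧
      ∀ a ∈ p.1, p'.2 a = p.2 a := by
    rintro ⟨E, g⟩ ⟨hE, hEc, hg, hgE, hgA⟩ D hD hDc
    obtain ⟨B, hBX, hBc, hB⟩ := hN.iso (E ∪ D) (union_subset hE hD) (small_union hEc hDc)
    obtain ⟨h0, hh0, h0B, h0D⟩ := hgA B hBX hBc
    obtain ⟨k, hk, hk1, hk2⟩ := M.sat hN'.mem (A := f '' B ∪ g '' E) (B := h0 '' (E ∪ D)) (by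
      refine union_subset ?_ ?_
      · exact (image_mono hBX).trans hN'.sub
      · rintro _ ⟨d, hd, rfl⟩
        exact hgE d hd) (small_union (small_image f hBc) (small_image g hEc))
      (small_image h0 (small_union hEc hDc))
    refine ⟨⟨E ∪ D, k * h0⟩, ⟨union_subset hE hD, small_union hEc hDc, M.G.mul_mem hk hh0,
      fun a ha => hk2 _ (mem_image_of_mem h0 ha), ?_⟩, subset_union_left, subset_union_right, ?_⟩
    · refine hB.compat hBX hBc hf (M.G.mul_mem hk hh0) fun b hb => ?_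
      rw [Equiv.Perm.mul_apply, h0B b hb]
      exact hk1 _ (Or.inl (mem_image_of_mem f hb))
    · intro a ha
      change (k * h0) a = g a
      rw [Equiv.Perm.mul_apply, h0D a ha]
      exact hk1 _ (Or.inr (mem_image_of_mem g ha))
  have back : ∀ p, Q p → ∀ D ⊆ N', #D < M.χ → ∃ p', Q p' ∧ p.1 ⊆ p'.1 ∧
      (∀ d ∈ D, ∃ a ∈ p'.1, p'.2 a = d) ∧ ∀ a ∈ p.1, p'.2 a = p.2 a := by
    rintro ⟨E, g⟩ ⟨hE, hEc, hg, hgE, hgA⟩ D hD hDc
    have hgEN : g '' E ⊆ N' := by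
      rintro _ ⟨e, he, rfl⟩
      exact hgE e he
    have hFc : #(g '' E ∪ D : Set C) < M.χ := small_union (small_image g hEc) hDc
    obtain ⟨B', hBX', hBc', hB'⟩ := hN'.iso (g '' E ∪ D) (union_subset hgEN hD) hFc
    -- choose preimages
    have hpre : ∀ b : B', ∃ x ∈ X, f x = b := fun b => hBX' b.2
    choose pre hpre1 hpre2 using hpre
    let B : Set C := range pre
    have hBX : B ⊆ X := by
      rintro _ ⟨b, rfl⟩
      exact hpre1 b
    have hBc : #B < M.χ := mk_range_le.trans_lt hBc'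
    have hfB : f '' B = B' := by
      ext b
      constructor
      · rintro ⟨_, ⟨b, rfl⟩, rfl⟩
        rw [hpre2]
        exact b.2
      · intro hb
        exact ⟨pre ⟨b, hb⟩, mem_range_self _, hpre2 ⟨b, hb⟩⟩
    obtain ⟨h0, hh0, h0B, h0E⟩ := hgA B hBX hBc
    obtain ⟨k, hk, hk1, hk2⟩ := M.sat hN.mem (A := B ∪ E) (B := (h0⁻¹ : Equiv.Perm C) '' (g '' E ∪ D))
      (union_subset (hBX.trans hN.sub) hE) (small_union hBc hEc) (small_image _ hFc)
    have hkf : ∀ b ∈ B, (k * h0⁻¹) (f b) = b := fun b hb => by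
      rw [Equiv.Perm.mul_apply, ← h0B b hb, inv_ap]
      exact hk1 b (Or.inl hb)
    have hkg : ∀ e ∈ E, (k * h0⁻¹) (g e) = e := fun e he => by
      rw [Equiv.Perm.mul_apply, ← h0E e he, inv_ap]
      exact hk1 e (Or.inr he)
    have hkG : k * h0⁻¹ ∈ M.G := M.G.mul_mem hk (M.G.inv_mem hh0)
    refine ⟨⟨(k * h0⁻¹) '' (g '' E ∪ D), (k * h0⁻¹)⁻¹⟩, ⟨?_, small_image _ hFc, M.G.inv_mem hkG,
      ?_, ?_⟩, ?_, ?_, ?_⟩
    · rintro _ ⟨c, hc, rfl⟩
      exact hk2 _ (mem_image_of_mem _ hc)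
    · rintro _ ⟨c, hc, rfl⟩
      change (k * h0⁻¹)⁻¹ ((k * h0⁻¹) c) ∈ N'
      rw [inv_ap]
      exact (union_subset hgEN hD) hc
    · intro A hA hAc
      obtain ⟨h, hh, h1, h2⟩ := Isol.compat' hBX hBc hB' hfB hf hkG hkf A hA hAc
      refine ⟨h, hh, h1, ?_⟩
      rintro _ ⟨c, hc, rfl⟩
      change h ((k * h0⁻¹) c) = (k * h0⁻¹)⁻¹ ((k * h0⁻¹) c)
      rw [h2 c hc, inv_ap]
    · intro e he
      exact ⟨g e, Or.inl (mem_image_of_mem g he), hkg e he⟩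
    · intro d hd
      refine ⟨(k * h0⁻¹) d, mem_image_of_mem _ (Or.inr hd), ?_⟩
      change (k * h0⁻¹)⁻¹ ((k * h0⁻¹) d) = d
      rw [inv_ap]
    · intro a ha
      change (k * h0⁻¹)⁻¹ a = g a
      rw [Equiv.Perm.inv_eq_iff_eq]
      exact (hkg a ha).symm
  obtain ⟨p, hp, hpp⟩ := exists_seq (fun n (p : Set C × Equiv.Perm C) => Q p ∧ R n ⊆ p.1 ∧
      ∀ d ∈ R' n, ∃ a ∈ p.1, p.2 a = d)
    (fun _ p p' => p.1 ⊆ p'.1 ∧ ∀ a ∈ p.1, p'.2 a = p.2 a) (by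
      have hQ0 : Q (∅, 1) := ⟨empty_subset N, small_finite finite_empty, M.G.one_mem,
        fun a ha => absurd ha (notMem_empty a), fun A hA hAc => by
          obtain ⟨g, hg, hgf⟩ := hf A hA hAc
          exact ⟨g, hg, hgf, fun a ha => absurd ha (notMem_empty a)⟩⟩
      obtain ⟨p1, hp1, -, hp1', -⟩ := forth _ hQ0 (R 0) (hRs 0) (M.T_card (hRT 0))
      obtain ⟨p2, hp2, hp2', hp2'', -⟩ := back _ hp1 (R' 0) (hRs' 0) (M.T_card (hRT' 0))
      exact ⟨p2, hp2, hp1'.trans hp2', hp2''⟩) (by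
      rintro n p ⟨hQ, -, -⟩
      obtain ⟨p1, hp1, h1, hp1', h1'⟩ := forth _ hQ (R (n + 1)) (hRs _) (M.T_card (hRT _))
      obtain ⟨p2, hp2, hp2', hp2'', h2'⟩ := back _ hp1 (R' (n + 1)) (hRs' _) (M.T_card (hRT' _))
      exact ⟨p2, ⟨hp2, hp1'.trans hp2', hp2''⟩, h1.trans hp2', fun a ha => by
        rw [h2' a (h1 ha), h1' a ha]⟩)
  have hmono : ∀ n m, n ≤ m → (p n).1 ⊆ (p m).1 ∧ ∀ a ∈ (p n).1, (p m).2 a = (p n).2 a := by
    intro n m hnm
    induction m, hnm using Nat.le_induction with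
    | base => exact ⟨Subset.rfl, fun _ _ => rfl⟩
    | succ m _ ih => exact ⟨ih.1.trans (hpp m).1, fun a ha => by
        rw [(hpp m).2 a (ih.1 ha), ih.2 a ha]⟩
  obtain ⟨h, hh, hhg⟩ := M.lim R hRm hRT (by rw [hRN]; exact hN.mem) (fun n => (p n).2)
    (fun n => (hp n).1.2.2.1) (fun n a ha => (hpp n).2 a ((hp n).2.1 ha))
  have hmem : ∀ a ∈ N, ∃ n, a ∈ R n := fun a ha => by
    rw [← hRN] at ha
    exact mem_iUnion.1 ha
  have hhp : ∀ n, ∀ a ∈ (p n).1, h a = (p n).2 a := by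
    intro n a ha
    obtain ⟨m, hm⟩ := hmem a ((hp n).1.1 ha)
    have h1 := hhg (max n m) a (hRm (le_max_right n m) hm)
    rw [h1]
    exact (hmono n (max n m) (le_max_left n m)).2 a ha
  refine ⟨h, hh, fun x hx => ?_, ?_⟩
  · obtain ⟨n, hn⟩ := hmem x (hN.sub hx)
    obtain ⟨k, -, hk1, hk2⟩ := (hp n).1.2.2.2.2 {x} (singleton_subset_iff.2 hx)
      (small_finite (finite_singleton x))
    rw [hhg n x hn, ← hk2 x ((hp n).2.1 hn), hk1 x rfl]
  · ext b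
    constructor
    · rintro ⟨a, ha, rfl⟩
      obtain ⟨n, hn⟩ := hmem a ha
      rw [hhg n a hn]
      exact (hp n).1.2.2.2.1 a ((hp n).2.1 hn)
    · intro hb
      have : ∃ n, b ∈ R' n := by
        rw [← hRN'] at hb
        exact mem_iUnion.1 hb
      obtain ⟨n, hn⟩ := this
      obtain ⟨a, ha, hab⟩ := (hp n).2.2 b hn
      exact ⟨a, (hp n).1.1 ha, by rw [hhp n a ha, hab]⟩

theorem Atomic.image {N : Set C} (hN : M.Atomic N X) {k : Equiv.Perm C} (hk : k ∈ M.G)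
    (hkX : ∀ x ∈ X, k x = x) : M.Atomic (k '' N) X := by
  refine ⟨M.S_inv hk hN.mem, fun x hx => ⟨x, hN.sub hx, hkX x hx⟩, fun E hE hEc => ?_⟩
  obtain ⟨B, hBX, hBc, hB⟩ := hN.iso ((k⁻¹ : Equiv.Perm C) '' E) (by
    rintro _ ⟨e, he, rfl⟩
    obtain ⟨a, ha, rfl⟩ := hE he
    rw [inv_ap]
    exact ha) (small_image _ hEc)
  refine ⟨B, hBX, hBc, ?_⟩
  have h1 := hB.smul hk fun b hb => hkX b (hBX hb)
  rw [← image_comp] at h1
  have h2 : (k ∘ (k⁻¹ : Equiv.Perm C)) '' E = E := by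
    have : (k ∘ (k⁻¹ : Equiv.Perm C)) = id := by
      funext a
      exact ap_inv k a
    rw [this, image_id]
  rwa [h2] at h1

end PG

end Vale.Agent.P307.R2.H541
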