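import Vale.Agent.P307.R2.H541.Free
import Vale.Agent.P307.R2.H718.QSys

/-!
Systems over a strong submodel of the saturated member, for an arbitrary type over it.
-/

set_option linter.unusedSectionVars false

universe u

open FirstOrder Cardinal Set Function

namespace Vale.Agent.P307.R2.H541

open Vale.Agent.P307 Vale.Agent.P307.H304 Vale.Agent.P307.R2.H287 Vale.Agent.P307.R2.H1
  Vale.Agent.P307.R2.H971 Vale.Agent.P307.R2.H804 Language.Structure Language.Substructure

open scoped Classical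

variable {L : Language.{u, u}} {K : AEC L} {ℓ θ : Cardinal.{u}}
  {κf α : Cardinal.{u} → Cardinal.{u}} {C : Type u} [L.Structure C]

/-- `x` realizes the type of `a` over `V`. -/
def PG.Same (M : PG C) (V : Set C) (a x : C) : Prop :=
  ∀ D ⊆ V, #D < M.χ → ∃ g ∈ M.G, (∀ d ∈ D, g d = d) ∧ g a = x

theorem PG.Same.conj {M : PG C} {V : Set C} {a x y : C} (hx : M.Same V a x) (hy : M.Same V a y) :
    M.Same V x y := by
  intro D hD hDc
  obtain ⟨g, hg, h1, h2⟩ := hx D hD hDc
  obtain ⟨k, hk, h3, h4⟩ := hy D hD hDc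
  refine ⟨k * g⁻¹, M.G.mul_mem hk (M.G.inv_mem hg), fun d hd => ?_, ?_⟩
  · rw [Equiv.Perm.mul_apply, PG.fix_inv (h1 d hd), h3 d hd]
  · rw [Equiv.Perm.mul_apply, ← h2, PG.inv_ap, h4]

theorem PG.Same.refl (M : PG C) (V : Set C) (a : C) : M.Same V a a := fun _ _ _ =>
  ⟨1, M.G.one_mem, fun _ _ => rfl, rfl⟩

theorem PG.Same.notMem {M : PG C} {V : Set C} {a x : C} (hx : M.Same V a x) (ha : a ∉ V) :
    x ∉ V := by
  intro h
  obtain ⟨g, hg, h1, h2⟩ := hx {x} (singleton_subset_iff.2 h) (PG.small_finite (finite_singleton x))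
  have h3 : g a = g x := by rw [h2, h1 x rfl]
  rw [g.injective h3] at ha
  exact ha h

section

variable (h₀ : BasePt K ℓ κf α θ) (hK : K.IsLS ℓ)
  (hunb : ∀ ν, ν < κf ν ∧ K.CategoricalIn (κf ν)) (hst : Stab K ℓ α (H287.thr κf))
  (hCm : K.mem C) (hs : Sat K θ C) (hCc : #C = Order.succ θ)

/-- A strong submodel as an element of the class. -/
theorem pg_mem {D : L.Substructure C} (h : (D : Set C) ∈ (pg h₀ hK hunb hst hCm hs hCc).S) :
    K.le D ∧ #D = θ := by
  obtain ⟨E, h1, h2, h3⟩ := h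
  have : E = D := SetLike.coe_injective h3
  subst this
  exact ⟨h1, h2⟩

theorem pg_mem' {D : L.Substructure C} (h : K.le D) (hc : #D = θ) :
    (D : Set C) ∈ (pg h₀ hK hunb hst hCm hs hCc).S := ⟨D, h, hc, rfl⟩

include h₀ hK hs hCc in
/-- An isomorphism of strong submodels is given by an element of the group. -/
theorem pg_isoOn {D E : L.Substructure C} (hD : K.le D) (hDc : #D = θ) (hE : K.le E) {f : C → C}
    (h : H427.IsoOn f D E) : ∃ g ∈ autG L C, (∀ a ∈ (D : Set C), g a = f a) ∧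
      g '' (D : Set C) = E := by
  obtain ⟨φ, hφ⟩ := h
  obtain ⟨g, hg⟩ := Sat.exists_aut hK h₀.pt.lt.le hs hCc D E hD hE hDc φ
  refine ⟨g.toEquiv, mem_autG g, fun a ha => (hg ⟨a, ha⟩).trans (hφ ⟨a, ha⟩), ?_⟩
  ext x
  constructor
  · rintro ⟨a, ha, rfl⟩
    have h1 : g a = φ ⟨a, ha⟩ := hg ⟨a, ha⟩
    change g a ∈ (E : Set C)
    rw [h1]
    exact (φ ⟨a, ha⟩).2
  · intro hx
    refine ⟨φ.symm ⟨x, hx⟩, (φ.symm ⟨x, hx⟩).2, ?_⟩
    change g (φ.symm ⟨x, hx⟩ : D) = x
    rw [hg, φ.apply_symm_apply]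

/-- An element of the group restricts to isomorphisms. -/
theorem isoOn_of_autG {D E : L.Substructure C} {g : Equiv.Perm C} (hg : g ∈ autG L C)
    (h : g '' (D : Set C) = E) : H427.IsoOn g D E := by
  obtain ⟨e, he⟩ := hg
  have h1 : D.map e.toHom = E := by
    apply SetLike.coe_injective
    rw [coe_map, ← h]
    exact image_congr fun x _ => he x
  subst h1
  exact ⟨e.toEmbedding.substructureEquivMap D, fun a => he a⟩

variable (hDI : (pg h₀ hK hunb hst hCm hs hCc).DI) (V : L.Substructure C) (hV : K.le V)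
  (hVc : #V = θ) (a : C) (ha : a ∉ V)

include h₀ hK hunb hst hCm hs hCc hDI hV hVc ha

/-- A new free realization of the type. -/
theorem pg_new {Z : Set C} (hZ : #Z ≤ θ) : ∃ y, y ∉ Z ∧
    (pg h₀ hK hunb hst hCm hs hCc).Same V a y ∧
    (pg h₀ hK hunb hst hCm hs hCc).Ind (V : Set C) {y} Z := by
  obtain ⟨g, hg, h1, h2⟩ := pg_free h₀ hK hunb hst hCm hs hCc hV hVc
    (E := {a}) ((lt_aleph0_iff_set_finite.2 (finite_singleton a)).trans_le (aleph0_le_pt h₀ hK)) hZ
  rw [image_singleton] at h2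
  have h3 : (pg h₀ hK hunb hst hCm hs hCc).Same V a (g a) := fun D hD _ =>
    ⟨g, hg, fun d hd => h1 d (hD hd), rfl⟩
  refine ⟨g a, fun h => ?_, h3, h2⟩
  exact h3.notMem ha (h2.inter_sub ⟨rfl, h⟩)

/-- The systems over `V` for the type of `a`. -/
def qsys : H718.QSys K θ V where
  PS A s := (pg h₀ hK hunb hst hCm hs hCc).PSys (fun t => (A t : Set C)) s ∧ A ∅ = V ∧
    ∀ x ∈ s, (pg h₀ hK hunb hst hCm hs hCc).Same V a x
  congr := by
    rintro A B s h ⟨h1, h2, h3⟩
    refine ⟨h1.congr fun t ht => ?_, ?_, h3⟩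
    · rw [h t ht]
    · rw [← h ∅ (Finset.empty_subset s), h2]
  mono := by
    rintro A s t ⟨h1, h2, h3⟩ ht
    exact ⟨h1.sub ht, h2, fun x hx => h3 x (ht hx)⟩
  empty := by
    intro A hA
    refine ⟨⟨?_, by simp, fun t ht h0 => ?_⟩, hA, by simp⟩
    · rw [hA]
      exact pg_mem' h₀ hK hunb hst hCm hs hCc hV hVc
    · rw [Finset.subset_empty.1 ht] at h0
      exact absurd h0 Finset.not_nonempty_empty
  bot h := h.2.1
  le h := (pg_mem h₀ hK hunb hst hCm hs hCc (h.1.mem (Finset.Subset.refl _))).1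
  card h := (pg_mem h₀ hK hunb hst hCm hs hCc (h.1.mem (Finset.Subset.refl _))).2.le
  mem h x hx := h.1.point (Finset.Subset.refl _) hx
  int := by
    rintro A s ⟨h1, -, -⟩ t ht t' ht'
    apply SetLike.coe_injective
    rw [Language.Substructure.coe_inf]
    exact h1.inter (pg_calc h₀ hK hunb hst hCm hs hCc) ht ht'
  step := by
    rintro A s ⟨h1, h2, h3⟩
    have hAc := (pg_mem h₀ hK hunb hst hCm hs hCc (h1.mem (Finset.Subset.refl _))).2
    obtain ⟨y, hy1, hy2, hy3⟩ := pg_new h₀ hK hunb hst hCm hs hCc hDI V hV hVc a ha hAc.le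
    have hys : y ∉ s := fun h => hy1 (h1.point (Finset.Subset.refl _) h)
    obtain ⟨N, hN, hNA⟩ := (pg_big h₀ hK hunb hst hCm hs hCc).ls ((A s : Set C) ∪ {y}) (by
      refine (mk_union_le _ _).trans (add_le_of_le (aleph0_le_pt h₀ hK) hAc.le ?_)
      rw [mk_singleton]
      exact one_le_aleph0.trans (aleph0_le_pt h₀ hK))
    obtain ⟨A', h4, h5, -⟩ := h1.exists_insert (pg_calc h₀ hK hunb hst hCm hs hCc) hDI hys (by
      rw [h2]
      exact hy3) hN (fun x hx => hNA (Or.inl hx)) (hNA (Or.inr rfl))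
    -- as substructures
    have h6 : ∀ t, t ⊆ insert y s → ∃ D : L.Substructure C, (D : Set C) = A' t := by
      intro t ht
      obtain ⟨D, -, -, hD⟩ := h5.mem ht
      exact ⟨D, hD⟩
    choose! D hD using h6
    have h7 : ∀ t, t ⊆ s → D t = A t := by
      intro t ht
      apply SetLike.coe_injective
      rw [hD t (ht.trans (Finset.subset_insert y s)), h4 t ht]
    refine ⟨y, hys, D, h7, h5.congr fun t ht => (hD t ht).symm, ?_, ?_⟩
    · rw [h7 ∅ (Finset.empty_subset s), h2]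
    · intro x hx
      rcases Finset.mem_insert.1 hx with rfl | hx
      · exact hy2
      · exact h3 x hx
  iso := by
    rintro A A' s s' ⟨h1, h2, h3⟩ ⟨h1', h2', h3'⟩ e he hes f hf hfe hfP
    rcases s.eq_empty_or_nonempty with rfl | hs0
    · rw [Finset.image_empty] at hes
      subst hes
      refine ⟨id, fun t ht => absurd ht (Finset.not_ssubset_empty t), ?_, by simp⟩
      rw [h2, h2']
      exact H718.isoOn_id V
    · obtain ⟨g, hg, h4, h5, h6⟩ := h1.exists_iso (pg_calc h₀ hK hunb hst hCm hs hCc) h1' hs0 e he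
        hes f (fun t ht => by
          have h7 := pg_mem h₀ hK hunb hst hCm hs hCc (h1.mem ht.1)
          have h8 : t.image e ⊆ s' := by
            rw [← hes]
            exact Finset.image_subset_image ht.1
          exact pg_isoOn h₀ hK hs hCc h7.1 h7.2
            (pg_mem h₀ hK hunb hst hCm hs hCc (h1'.mem h8)).1 (hf t ht)) hfe (by
          intro x hx D hD hDc
          change D ⊆ (A ∅ : Set C) at hD
          rw [h2] at hD
          obtain ⟨g, hg, h8, h9⟩ := ((h3 x hx).conj (h3' (e x) (by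
            rw [← hes]
            exact Finset.mem_image_of_mem e hx))) D hD hDc
          exact ⟨g, hg, fun d hd => by rw [h8 d hd, hfP d (hD hd)], h9⟩)
      exact ⟨g, h4, isoOn_of_autG hg h5, h6⟩

end

end Vale.Agent.P307.R2.H541
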