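import Vale.Agent.P307.R2.H541.Sys
import Mathlib.Data.Finset.Powerset
import Mathlib.Data.Set.Function

/-!
Finite-dimensional prime systems: uniqueness, extension, atomicity over the points, closure and
exchange.
-/

universe u

open Set Cardinal Function

namespace Vale.Agent.P307.R2.H541

open scoped Classical

namespace PG

variable {C : Type u} {M : PG C} {A A' : Finset C → Set C} {s s' : Finset C}

theorem bd_singleton (A : Finset C → Set C) (x : C) : bd A {x} = {x} ∪ A ∅ := by
  ext c
  constructor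
  · rintro (hc | ⟨r, hr, hc⟩)
    · exact Or.inl (Finset.mem_singleton.1 hc)
    · rw [Finset.ssubset_singleton_iff] at hr
      subst hr
      exact Or.inr hc
  · rintro (hc | hc)
    · exact Or.inl (Finset.mem_singleton.2 hc)
    · exact Or.inr ⟨∅, Finset.ssubset_singleton_iff.2 rfl, hc⟩

namespace PSys

/-- Coherent isomorphisms of the faces of a family are locally elementary. -/
theorem le_un (hM : M.Calc) (hA : M.PSys A s) (hA' : M.PSys A' s') (e : C → C) (he : InjOn e s)
    (hes : s.image e = s') (f : C → C) (F : Finset (Finset C)) (hF : Down F)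
    (hFs : ∀ v ∈ F, v ⊆ s)
    (h : ∀ v ∈ F, ∃ g ∈ M.G, (∀ a ∈ A v, g a = f a) ∧ g '' A v = A' (v.image e)) :
    M.LE f (un A F) := by
  revert h
  revert hFs
  revert hF
  revert F
  refine down_induction (p := fun F => (∀ v ∈ F, v ⊆ s) →
    (∀ v ∈ F, ∃ g ∈ M.G, (∀ a ∈ A v, g a = f a) ∧ g '' A v = A' (v.image e)) →
      M.LE f (un A F)) ?_ ?_
  · intro _ h E hE hEc
    obtain ⟨g, hg, h1, -⟩ := h ∅ (Finset.mem_singleton_self ∅)
    refine ⟨g, hg, fun a ha => ?_⟩
    obtain ⟨v, hv, hav⟩ := hE ha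
    rw [Finset.mem_singleton] at hv
    subst hv
    exact h1 a hav
  intro F w hF hwF hw ih hFs' h'
  have hFs : ∀ v ∈ F, v ⊆ s := fun v hv => hFs' v (Finset.mem_insert_of_mem hv)
  have h := fun v hv => h' v (Finset.mem_insert_of_mem hv)
  have hws : w ⊆ s := hFs' w (Finset.mem_insert_self w F)
  have hLE : M.LE f (un A F) := ih hFs h
  obtain ⟨gw, hgw, hw1, hw2⟩ := h' w (Finset.mem_insert_self w F)
  intro E₀ hE₀ hE₀c
  have hEw : #(E₀ ∩ A w : Set C) < M.χ := small_inter_left _ hE₀c
  -- it is enough to find an element of the group with the right values on two pieces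
  suffices hsuf : ∃ k ∈ M.G, (∀ a ∈ E₀ ∩ un A F, k a = f a) ∧ ∀ a ∈ E₀ ∩ A w, k a = f a by
    obtain ⟨k, hk, h1, h2⟩ := hsuf
    refine ⟨k, hk, fun a ha => ?_⟩
    have h3 := hE₀ ha
    rw [un_insert] at h3
    rcases h3 with h3 | h3
    · exact h2 a ⟨ha, h3⟩
    · exact h1 a ⟨ha, h3⟩
  rcases cases_card w with rfl | ⟨y, rfl⟩ | hwc
  · exact absurd hF.1 hwF
  · have hys : y ∈ s := Finset.singleton_subset_iff.1 hws
    have hsub := hA.un_sub hF hFs hwF
    have hind := hA.ind_face hys
    have hPsub : A ∅ ⊆ A (s.erase y) := hA.mono (Finset.erase_subset y s) (Finset.empty_subset _)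
    have hPy : A ∅ ⊆ A {y} := hA.mono hws (Finset.empty_subset _)
    have hey : e y ∈ s' := by
      rw [← hes]
      exact Finset.mem_image_of_mem e hys
    obtain ⟨p, hpP, hpc, hp⟩ := hM.based hA.memS hEw
    obtain ⟨g, hg, h1⟩ := hLE ((E₀ ∩ un A F) ∪ p) (union_subset inter_subset_right
        fun c hc => ⟨∅, hF.1, hpP hc⟩) (small_union (small_inter_left _ hE₀c) hpc)
    obtain ⟨g0, hg0, h01, h02⟩ := h ∅ hF.1
    have hkG : gw⁻¹ * g ∈ M.G := M.G.mul_mem (M.G.inv_mem hgw) hg
    have hkp : ∀ c ∈ p, (gw⁻¹ * g) c = c := fun c hc => by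
      rw [Equiv.Perm.mul_apply, h1 c (Or.inr hc), ← hw1 c (hPy (hpP hc)), inv_ap]
    -- the independence of the image
    have hind' := (hA'.ind_face hey).smul (M.G.inv_mem hgw)
    have e1 : (gw⁻¹ : Equiv.Perm C) '' A' {e y} = A {y} := by
      have : A' {e y} = gw '' A {y} := by
        rw [hw2, Finset.image_singleton]
      rw [this, ← image_comp]
      have : ((gw⁻¹ : Equiv.Perm C) ∘ gw) = id := by
        funext a
        exact inv_ap gw a
      rw [this, image_id]
    have e2 : (gw⁻¹ : Equiv.Perm C) '' A' ∅ = A ∅ := by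
      have : A' ∅ = gw '' A ∅ := by
        rw [Finset.image_empty] at h02
        rw [← h02]
        refine image_congr fun a ha => ?_
        rw [h01 a ha, hw1 a (hPy ha)]
      rw [this, ← image_comp]
      have : ((gw⁻¹ : Equiv.Perm C) ∘ gw) = id := by
        funext a
        exact inv_ap gw a
      rw [this, image_id]
    rw [e1, e2] at hind'
    obtain ⟨k, hk, h2, h3, h4⟩ := hp (gw⁻¹ * g) hkG hkp ((E₀ ∩ un A F) ∪ p)
        (small_union (small_inter_left _ hE₀c) hpc) (hind.mono inter_subset_right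
          (union_subset (inter_subset_right.trans hsub) (hpP.trans hPsub)))
        (hind'.mono inter_subset_right (by
          rintro _ ⟨c, hc, rfl⟩
          refine ⟨g c, ?_, rfl⟩
          rw [h1 c hc]
          have hcF : c ∈ un A F := by
            rcases hc with hc | hc
            · exact hc.2
            · exact ⟨∅, hF.1, hpP hc⟩
          obtain ⟨v, hv, hcv⟩ := hcF
          obtain ⟨gv, hgv, hv1, hv2⟩ := h v hv
          rw [← hv1 c hcv]
          have h5 : gv c ∈ A' (v.image e) := by
            rw [← hv2]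
            exact mem_image_of_mem gv hcv
          refine hA'.mono (Finset.erase_subset (e y) s') (r := v.image e) ?_ h5
          intro z hz
          obtain ⟨x, hx, rfl⟩ := Finset.mem_image.1 hz
          refine Finset.mem_erase.2 ⟨fun h6 => ?_, ?_⟩
          · have h7 := he (hFs v hv hx) hys h6
            subst h7
            exact hwF (hF.2 v hv {x} (Finset.singleton_subset_iff.2 hx))
          · rw [← hes]
            exact Finset.mem_image_of_mem e (hFs v hv hx)))
    refine ⟨gw * k, M.G.mul_mem hgw hk, fun a ha => ?_, fun a ha => ?_⟩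
    · rw [Equiv.Perm.mul_apply, h4 a (Or.inl ha), Equiv.Perm.mul_apply, ap_inv,
        h1 a (Or.inl ha)]
    · rw [Equiv.Perm.mul_apply, h3 a ha, hw1 a ha.2]
  · obtain ⟨B, hB, hBc, hiso⟩ := hA.lift_un hF hFs (hA.ref hM F hF hFs) hwF hw hws hwc
      (E := E₀ ∩ A w) inter_subset_right hEw
    obtain ⟨hbd, hbd'⟩ := hA.bd_sub_un hws hw hwc
    have hD : (E₀ ∩ un A F) ∪ B ⊆ un A F := union_subset inter_subset_right (hB.trans hbd)
    have hDc : #((E₀ ∩ un A F) ∪ B : Set C) < M.χ := small_union (small_inter_left _ hE₀c) hBc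
    obtain ⟨g, hg, h1⟩ := hLE _ hD hDc
    obtain ⟨l, hl, h4, h5⟩ := hiso (g⁻¹ * gw) (M.G.mul_mem (M.G.inv_mem hg) hgw) (fun b hb => by
      have h6 : b ∈ A w := by
        obtain ⟨r, hr, hbr⟩ := hbd' b (hB hb)
        exact hA.mono hws hr.1 hbr
      rw [Equiv.Perm.mul_apply, hw1 b h6, ← h1 b (Or.inr hb), inv_ap]) _ hD hDc
    refine ⟨g * l, M.G.mul_mem hg hl, fun a ha => ?_, fun a ha => ?_⟩
    · rw [Equiv.Perm.mul_apply, h4 a (Or.inl ha), h1 a (Or.inl ha)]
    · rw [Equiv.Perm.mul_apply, h5 a ha, Equiv.Perm.mul_apply, ap_inv, hw1 a ha.2]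

/-- Uniqueness: coherent isomorphisms of the proper faces extend. -/
theorem exists_iso (hM : M.Calc) (hA : M.PSys A s) (hA' : M.PSys A' s') (hs : s.Nonempty)
    (e : C → C) (he : InjOn e s) (hes : s.image e = s') (f : C → C)
    (h : ∀ t, t ⊂ s → ∃ g ∈ M.G, (∀ a ∈ A t, g a = f a) ∧ g '' A t = A' (t.image e))
    (hfe : ∀ t, t ⊂ s → ∀ x ∈ t, f x = e x)
    (hq : ∀ x ∈ s, ∀ D ⊆ A ∅, #D < M.χ → ∃ g ∈ M.G, (∀ a ∈ D, g a = f a) ∧ g x = e x) :
    ∃ g ∈ M.G, (∀ t, t ⊂ s → ∀ a ∈ A t, g a = f a) ∧ g '' A s = A' s' ∧ ∀ x ∈ s, g x = e x := by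
  have hs' : s'.Nonempty := by
    rw [← hes]
    exact hs.image e
  have hat := hA.atomic s (Finset.Subset.refl s) hs
  have hat' := hA'.atomic s' (Finset.Subset.refl s') hs'
  rcases cases_card s with rfl | ⟨x, rfl⟩ | hsc
  · exact absurd hs Finset.not_nonempty_empty
  · -- one point
    rw [Finset.image_singleton] at hes
    subst hes
    have h0 : (∅ : Finset C) ⊂ {x} := Finset.ssubset_singleton_iff.2 rfl
    obtain ⟨g0, hg0, h01, h02⟩ := h ∅ h0
    rw [Finset.image_empty] at h02
    have hfx : x ∈ A ∅ → f x = e x := by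
      intro hx
      obtain ⟨g, hg, h1, h2⟩ := hq x (Finset.mem_singleton_self x) {x}
        (singleton_subset_iff.2 hx) (small_finite (finite_singleton x))
      rw [← h1 x rfl, h2]
    rw [bd_singleton] at hat hat'
    have hf1 : ∀ a ∈ A ∅, update f x (e x) a = f a := by
      intro a ha
      rcases eq_or_ne a x with rfl | hax
      · rw [update_self, hfx ha]
      · rw [update_of_ne hax]
    have hLE : M.LE (update f x (e x)) ({x} ∪ A ∅) := by
      intro D hD hDc
      obtain ⟨g, hg, h1, h2⟩ := hq x (Finset.mem_singleton_self x) (D ∩ A ∅) inter_subset_right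
        (small_inter_left _ hDc)
      refine ⟨g, hg, fun a ha => ?_⟩
      rcases hD ha with h3 | h3
      · rw [mem_singleton_iff] at h3
        subst h3
        rw [update_self, h2]
      · rw [hf1 a h3, h1 a ⟨ha, h3⟩]
    have himg : update f x (e x) '' ({x} ∪ A ∅) = {e x} ∪ A' ∅ := by
      rw [image_union, image_singleton, update_self, ← h02]
      congr 1
      refine image_congr fun a ha => ?_
      rw [hf1 a ha, h01 a ha]
    rw [← himg] at hat'
    obtain ⟨g, hg, h1, h2⟩ := hat.exists_iso hLE hat'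
    refine ⟨g, hg, fun t ht a ha => ?_, h2, fun z hz => ?_⟩
    · rw [Finset.ssubset_singleton_iff] at ht
      subst ht
      rw [h1 a (Or.inr ha), hf1 a ha]
    · rw [Finset.mem_singleton] at hz
      subst hz
      rw [h1 z (Or.inl rfl), update_self]
  · have hF : Down s.ssubsets := by
      refine ⟨Finset.mem_ssubsets.2 (Finset.empty_ssubset.2 hs), fun v hv r hr => ?_⟩
      exact Finset.mem_ssubsets.2 (lt_of_le_of_lt hr (Finset.mem_ssubsets.1 hv))
    have hLE := le_un hM hA hA' e he hes f s.ssubsets hF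
      (fun v hv => (Finset.mem_ssubsets.1 hv).1) fun v hv => h v (Finset.mem_ssubsets.1 hv)
    obtain ⟨hb1, hb2⟩ := hA.bd_sub_un (Finset.Subset.refl s)
      (fun r hr => Finset.mem_ssubsets.2 hr) hsc
    have hsc' : 1 < s'.card := by
      rw [← hes, Finset.card_image_of_injOn he]
      exact hsc
    obtain ⟨-, hb2'⟩ := hA'.bd_sub_un (F := s'.ssubsets) (Finset.Subset.refl s')
      (fun r hr => Finset.mem_ssubsets.2 hr) hsc'
    have hlt : ∀ t, t ⊂ s → t.image e ⊂ s' := by
      intro t ht
      rw [← hes]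
      refine lt_of_le_of_ne (Finset.image_subset_image ht.1) fun h1 => ht.2 fun x hx => ?_
      have h2 : e x ∈ t.image e := by
        rw [h1]
        exact Finset.mem_image_of_mem e hx
      obtain ⟨z, hz, hzx⟩ := Finset.mem_image.1 h2
      rwa [← he (ht.1 hz) hx hzx]
    have himg : f '' bd A s = bd A' s' := by
      ext c
      constructor
      · rintro ⟨a, ha, rfl⟩
        obtain ⟨t, ht, hat⟩ := hb2 a ha
        obtain ⟨g, hg, h1, h2⟩ := h t ht
        refine Or.inr ⟨t.image e, hlt t ht, ?_⟩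
        rw [← h2, ← h1 a hat]
        exact mem_image_of_mem g hat
      · intro hc
        obtain ⟨r, hr, hcr⟩ := hb2' c hc
        have h1 : (s.filter fun x => e x ∈ r).image e = r := by
          ext z
          constructor
          · intro hz
            obtain ⟨x, hx, rfl⟩ := Finset.mem_image.1 hz
            exact (Finset.mem_filter.1 hx).2
          · intro hz
            have h2 := hr.1 hz
            rw [← hes] at h2
            obtain ⟨x, hx, rfl⟩ := Finset.mem_image.1 h2
            exact Finset.mem_image_of_mem e (Finset.mem_filter.2 ⟨hx, hz⟩)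
        have h2 : (s.filter fun x => e x ∈ r) ⊂ s := by
          refine lt_of_le_of_ne (Finset.filter_subset _ _) fun h3 => ?_
          rw [h3, hes] at h1
          exact hr.ne h1.symm
        obtain ⟨g, hg, h3, h4⟩ := h _ h2
        rw [h1] at h4
        rw [← h4] at hcr
        obtain ⟨a, ha, rfl⟩ := hcr
        exact ⟨a, Or.inr ⟨_, h2, ha⟩, (h3 a ha).symm⟩
    have hLE' : M.LE f (bd A s) := fun D hD hDc => hLE D (hD.trans hb1) hDc
    rw [← himg] at hat'
    obtain ⟨g, hg, h1, h2⟩ := hat.exists_iso hLE' hat'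
    refine ⟨g, hg, fun t ht a ha => h1 a (Or.inr ⟨t, ht, ha⟩), h2, fun x hx => ?_⟩
    have hx1 : ({x} : Finset C) ⊂ s := by
      refine lt_of_le_of_ne (Finset.singleton_subset_iff.2 hx) ?_
      rintro rfl
      simp at hsc
    rw [h1 x (Or.inl hx), hfe {x} hx1 x (Finset.mem_singleton_self x)]

/-- Extension: the last face inside a model. -/
theorem exists_ext (hs : s.Nonempty) (h : ∀ t, t ⊂ s → M.PSys A t)
    (hind : ∀ x ∈ s, M.Ind (A ∅) {x} (A (s.erase x))) (hex : ∃ N, M.Atomic N (bd A s))
    {N : Set C} (hN : N ∈ M.S) (hAN : ∀ t, t ⊂ s → A t ⊆ N) (hsN : ∀ x ∈ s, x ∈ N) :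
    ∃ B ⊆ N, M.PSys (update A s B) s := by
  obtain ⟨N', hN'⟩ := hex
  obtain ⟨k, hk, h1, h2⟩ := hN'.exists_embed (f := id) (fun D _ _ => ⟨1, M.G.one_mem,
    fun _ _ => rfl⟩) hN (by
      rintro x (hx | ⟨r, hr, hx⟩)
      · exact hsN x hx
      · exact hAN r hr hx)
  have h0 : (∅ : Finset C) ⊂ s := Finset.empty_ssubset.2 hs
  refine ⟨k '' N', by
    rintro _ ⟨a, ha, rfl⟩
    exact h2 a ha, ?_, ?_, ?_⟩
  · rw [update_of_ne h0.ne]
    exact (h ∅ h0).memS
  · intro x hx
    rw [update_of_ne h0.ne, update_of_ne (Finset.erase_ssubset hx).ne]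
    exact hind x hx
  · intro t ht ht0
    rcases eq_or_ne t s with rfl | hne
    · rw [update_self, ← bd_congr (A := A) fun r hr => by rw [update_of_ne hr.ne]]
      exact hN'.image hk h1
    · have hts : t ⊂ s := lt_of_le_of_ne ht hne
      rw [update_of_ne hne, ← bd_congr (A := A) fun r hr => by
        rw [update_of_ne (lt_of_lt_of_le hr ht).ne]]
      exact (h t hts).atomic t (Finset.Subset.refl t) ht0

/-- `A s` is atomic over `A t` and the points. -/
theorem atomic_over (hM : M.Calc) (hA : M.PSys A s) {t : Finset C} (ht : t ⊆ s) :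
    M.Atomic (A s) (A t ∪ s) := by
  have key : ∀ F, Down F → (∀ v ∈ F, v ⊆ s) → ∀ E ⊆ un A (F ∪ t.powerset), #E < M.χ →
      ∃ B ⊆ A t ∪ {y | y ∈ s ∧ {y} ∈ F}, #B < M.χ ∧
        M.Isol B (A t ∪ {y | y ∈ s ∧ {y} ∈ F}) E := by
    refine down_induction (p := fun F => (∀ v ∈ F, v ⊆ s) →
      ∀ E ⊆ un A (F ∪ t.powerset), #E < M.χ →
      ∃ B ⊆ A t ∪ {y | y ∈ s ∧ {y} ∈ F}, #B < M.χ ∧
        M.Isol B (A t ∪ {y | y ∈ s ∧ {y} ∈ F}) E) ?_ ?_
    · intro _ E hE hEc
      refine ⟨E, fun c hc => Or.inl ?_, hEc, Isol.self Subset.rfl⟩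
      obtain ⟨v, hv, hcv⟩ := hE hc
      rw [Finset.mem_union, Finset.mem_singleton, Finset.mem_powerset] at hv
      refine hA.mono ht (r := v) ?_ hcv
      rcases hv with rfl | hv
      · exact Finset.empty_subset t
      · exact hv
    intro F w hF hwF hw ih hFs' E₀ hE₀ hE₀c
    have hFs : ∀ v ∈ F, v ⊆ s := fun v hv => hFs' v (Finset.mem_insert_of_mem hv)
    have hws : w ⊆ s := hFs' w (Finset.mem_insert_self w F)
    have hIH := ih hFs
    have hFp : Down (F ∪ t.powerset) := by
      refine ⟨Finset.mem_union_left _ hF.1, fun v hv r hr => ?_⟩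
      rcases Finset.mem_union.1 hv with hv | hv
      · exact Finset.mem_union_left _ (hF.2 v hv r hr)
      · exact Finset.mem_union_right _ (Finset.mem_powerset.2
          (hr.trans (Finset.mem_powerset.1 hv)))
    have hFps : ∀ v ∈ F ∪ t.powerset, v ⊆ s := by
      intro v hv
      rcases Finset.mem_union.1 hv with hv | hv
      · exact hFs v hv
      · exact (Finset.mem_powerset.1 hv).trans ht
    have hYF : A t ∪ {y | y ∈ s ∧ {y} ∈ F} ⊆ un A (F ∪ t.powerset) := by
      rintro c (hc | hc)
      · exact ⟨t, Finset.mem_union_right _ (Finset.mem_powerset.2 (Finset.Subset.refl t)), hc⟩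
      · exact ⟨{c}, Finset.mem_union_left _ hc.2, hA.point
          (Finset.singleton_subset_iff.2 hc.1) (Finset.mem_singleton_self c)⟩
    have hYm : A t ∪ {y | y ∈ s ∧ {y} ∈ F} ⊆ A t ∪ {y | y ∈ s ∧ {y} ∈ insert w F} :=
      union_subset_union_right _ fun y hy => ⟨hy.1, Finset.mem_insert_of_mem hy.2⟩
    by_cases hwt : w ∈ F ∪ t.powerset
    · -- nothing new
      have h1 : w ⊆ t := by
        rcases Finset.mem_union.1 hwt with h | h
        · exact absurd h hwF
        · exact Finset.mem_powerset.1 h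
      have h2 : insert w F ∪ t.powerset = F ∪ t.powerset := by
        rw [Finset.insert_union, Finset.insert_eq_of_mem hwt]
      rw [h2] at hE₀
      obtain ⟨B, hB, hBc, hiso⟩ := hIH E₀ hE₀ hE₀c
      have h3 : A t ∪ {y | y ∈ s ∧ {y} ∈ insert w F} = A t ∪ {y | y ∈ s ∧ {y} ∈ F} := by
        refine Subset.antisymm ?_ hYm
        rintro c (hc | ⟨hc, hc'⟩)
        · exact Or.inl hc
        · rcases Finset.mem_insert.1 hc' with h4 | h4
          · left
            exact hA.point ht (h1 (by rw [← h4]; exact Finset.mem_singleton_self c))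
          · exact Or.inr ⟨hc, h4⟩
      rw [h3]
      exact ⟨B, hB, hBc, hiso⟩
    have hins : insert w F ∪ t.powerset = insert w (F ∪ t.powerset) := Finset.insert_union w F _
    have hwp : ∀ r, r ⊂ w → r ∈ F ∪ t.powerset := fun r hr => Finset.mem_union_left _ (hw r hr)
    rw [hins, un_insert] at hE₀
    have hEw : #(E₀ ∩ A w : Set C) < M.χ := small_inter_left _ hE₀c
    have hsplit : E₀ ⊆ (E₀ ∩ un A (F ∪ t.powerset)) ∪ (E₀ ∩ A w) := by
      intro c hc
      rcases hE₀ hc with h | h
      · exact Or.inr ⟨hc, h⟩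
      · exact Or.inl ⟨hc, h⟩
    rcases cases_card w with rfl | ⟨y, rfl⟩ | hwc
    · exact absurd hF.1 hwF
    · -- a new point
      have hys : y ∈ s := Finset.singleton_subset_iff.1 hws
      have hyt : y ∉ t := fun h => hwt (Finset.mem_union_right _
        (Finset.mem_powerset.2 (Finset.singleton_subset_iff.2 h)))
      have hsub := hA.un_sub hFp hFps hwt
      have hindy := hA.ind y hys
      have hat := hA.atomic {y} hws (Finset.singleton_nonempty y)
      rw [bd_singleton] at hat
      obtain ⟨B1, hB1, hB1c, hiso1⟩ := hat.iso (E₀ ∩ A {y}) inter_subset_right hEw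
      obtain ⟨B0, hB0, hB0c, hiso0⟩ := hIH (E₀ ∩ un A (F ∪ t.powerset)) inter_subset_right
        (small_inter_left _ hE₀c)
      have hPt : A ∅ ⊆ A t := hA.mono ht (Finset.empty_subset t)
      -- lifting of the first
      have htv1 : M.TV ({y} ∪ A ∅) ({y} ∪ un A (F ∪ t.powerset)) := by
        intro D hD hDc E hE hEc
        obtain ⟨g, hg, h1, h2⟩ := hindy (D ∪ {y}) (by
          rintro c (hc | hc)
          · rcases hD hc with h | h
            · exact Or.inr h
            · exact Or.inl h
          · exact Or.inr hc) (small_union hDc (small_finite (finite_singleton y)))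
          (E ∩ un A (F ∪ t.powerset)) (inter_subset_right.trans hsub) (small_inter_left _ hEc)
        refine ⟨g, hg, fun a ha => h1 a (Or.inl ha), fun d hd => ?_⟩
        rcases hE hd with h | h
        · rw [mem_singleton_iff] at h
          subst h
          rw [h1 d (Or.inr rfl)]
          exact Or.inl rfl
        · exact Or.inr (h2 d ⟨hd, h⟩)
      have h1 := hiso1.lift htv1 hB1 hB1c
      -- lifting of the second
      have htv0 : M.TV (A t ∪ {y | y ∈ s ∧ {y} ∈ F})
          ((A t ∪ {y | y ∈ s ∧ {y} ∈ F}) ∪ {y}) := by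
        intro D hD hDc E hE hEc
        obtain ⟨g, hg, h2, h3⟩ := hM.sym hA.memS hindy (D ∪ (E ∩ un A (F ∪ t.powerset)))
          (union_subset ((hD.trans hYF).trans (hsub.trans subset_union_right))
            ((inter_subset_right.trans hsub).trans subset_union_right))
          (small_union hDc (small_inter_left _ hEc)) {y} Subset.rfl
          (small_finite (finite_singleton y))
        refine ⟨g, hg, fun a ha => h2 a (Or.inl ha), fun d hd => ?_⟩
        rcases hE hd with h | h
        · rw [h2 d (Or.inr ⟨hd, hYF h⟩)]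
          exact h
        · rw [mem_singleton_iff] at h
          subst h
          exact Or.inl (hPt (h3 d rfl))
      have h0 := hiso0.lift htv0 hB0 hB0c
      have hY' : A t ∪ {z | z ∈ s ∧ {z} ∈ insert {y} F} =
          (A t ∪ {z | z ∈ s ∧ {z} ∈ F}) ∪ {y} := by
        ext c
        constructor
        · rintro (hc | ⟨hc, hc'⟩)
          · exact Or.inl (Or.inl hc)
          · rcases Finset.mem_insert.1 hc' with h4 | h4
            · exact Or.inr (Finset.singleton_injective h4)
            · exact Or.inl (Or.inr ⟨hc, h4⟩)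
        · rintro ((hc | ⟨hc, hc'⟩) | hc)
          · exact Or.inl hc
          · exact Or.inr ⟨hc, Finset.mem_insert_of_mem hc'⟩
          · rw [mem_singleton_iff] at hc
            subst hc
            exact Or.inr ⟨hys, Finset.mem_insert_self _ _⟩
      rw [hY']
      have h2 : M.Isol B1 (((A t ∪ {z | z ∈ s ∧ {z} ∈ F}) ∪ {y}) ∪
          (E₀ ∩ un A (F ∪ t.powerset))) (E₀ ∩ A {y}) := by
        refine h1.mono ?_
        rintro c ((hc | hc) | hc)
        · exact Or.inr (hYF hc)
        · exact Or.inl hc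
        · exact Or.inr hc.2
      have hB1' : B1 ⊆ (A t ∪ {z | z ∈ s ∧ {z} ∈ F}) ∪ {y} := by
        intro c hc
        rcases hB1 hc with h | h
        · exact Or.inr h
        · exact Or.inl (Or.inl (hPt h))
      refine ⟨B0 ∪ (B1 ∩ ((A t ∪ {z | z ∈ s ∧ {z} ∈ F}) ∪ {y})), ?_, ?_, ?_⟩
      · exact union_subset (hB0.trans subset_union_left) inter_subset_right
      · exact small_union hB0c (small_inter_left _ hB1c)
      · exact (h0.trans (small_inter_left _ hE₀c) (hB0.trans subset_union_left) hB0c h2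
          (hB1'.trans subset_union_left) hB1c).subset hsplit
    · obtain ⟨B, hB, hBc, hiso⟩ := hA.lift_un hFp hFps (hA.ref hM _ hFp hFps) hwt hwp hws hwc
        (E := E₀ ∩ A w) inter_subset_right hEw
      obtain ⟨hbd, hbd'⟩ := hA.bd_sub_un hws hwp hwc
      obtain ⟨B0, hB0, hB0c, hiso0⟩ := hIH ((E₀ ∩ un A (F ∪ t.powerset)) ∪ B)
        (union_subset inter_subset_right (hB.trans hbd))
        (small_union (small_inter_left _ hE₀c) hBc)
      have hY' : A t ∪ {z | z ∈ s ∧ {z} ∈ insert w F} = A t ∪ {z | z ∈ s ∧ {z} ∈ F} := by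
        refine Subset.antisymm ?_ hYm
        rintro c (hc | ⟨hc, hc'⟩)
        · exact Or.inl hc
        · rcases Finset.mem_insert.1 hc' with h4 | h4
          · rw [← h4] at hwc
            simp at hwc
          · exact Or.inr ⟨hc, h4⟩
      rw [hY']
      have h2 : M.Isol B ((A t ∪ {z | z ∈ s ∧ {z} ∈ F}) ∪
          ((E₀ ∩ un A (F ∪ t.powerset)) ∪ B)) (E₀ ∩ A w) := by
        refine hiso.mono (union_subset hYF (union_subset inter_subset_right (hB.trans hbd)))
      refine ⟨B0 ∪ (B ∩ (A t ∪ {z | z ∈ s ∧ {z} ∈ F})), ?_, ?_, ?_⟩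
      · exact union_subset hB0 inter_subset_right
      · exact small_union hB0c (small_inter_left _ hBc)
      · refine (hiso0.trans (small_union (small_inter_left _ hE₀c) hBc) hB0 hB0c h2
          (fun c hc => Or.inr (Or.inr hc)) hBc).subset fun c hc => ?_
        rcases hsplit hc with h | h
        · exact Or.inl (Or.inl h)
        · exact Or.inr h
  refine ⟨hA.mem (Finset.Subset.refl s), ?_, fun E hE hEc => ?_⟩
  · rintro c (hc | hc)
    · exact hA.mono (Finset.Subset.refl s) ht hc
    · exact hA.point (Finset.Subset.refl s) hc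
  · obtain ⟨B, hB, hBc, hiso⟩ := key s.powerset (down_powerset s)
      (fun v hv => Finset.mem_powerset.1 hv) E (fun c hc => ⟨s, Finset.mem_union_left _
        (Finset.mem_powerset.2 (Finset.Subset.refl s)), hE hc⟩) hEc
    have h1 : A t ∪ {y | y ∈ s ∧ {y} ∈ s.powerset} = A t ∪ s := by
      ext c
      constructor
      · rintro (hc | hc)
        · exact Or.inl hc
        · exact Or.inr hc.1
      · rintro (hc | hc)
        · exact Or.inl hc
        · exact Or.inr ⟨hc, Finset.mem_powerset.2 (Finset.singleton_subset_iff.2 hc)⟩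
    rw [h1] at hB hiso
    exact ⟨B, hB, hBc, hiso⟩

/-- Closure: a point of `A s` outside `A ∅` is not independent from a model with the points. -/
theorem not_ind (hM : M.Calc) (hA : M.PSys A s) {y : C} (hy : y ∈ A s) (hyP : y ∉ A ∅)
    {V : Set C} (hs : ∀ x ∈ s, x ∈ V) : ¬ M.Ind (A ∅) {y} V := by
  intro h
  have hat := hA.atomic_over hM (Finset.empty_subset s)
  obtain ⟨B, hB, hBc, hiso⟩ := hat.iso {y} (singleton_subset_iff.2 hy)
    (small_finite (finite_singleton y))
  obtain ⟨g, hg, h1, h2⟩ := hM.sym hA.memS h B (by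
    intro c hc
    rcases hB hc with h | h
    · exact Or.inl h
    · exact Or.inr (hs c h)) hBc {y} Subset.rfl (small_finite (finite_singleton y))
  have h3 := hiso.eq_of_mem hg h1 (Or.inl (h2 y rfl))
  rw [← h3] at hyP
  exact hyP (h2 y rfl)

/-- Exchange. -/
theorem not_ind_exch (hM : M.Calc) {x y : C} (hA : M.PSys A (insert x s))
    (hy : y ∈ A (insert x s)) (hys : y ∉ A s) {N : Set C} (hyN : y ∈ N) (hsN : A s ⊆ N) :
    ¬ M.Ind (A ∅) {x} N := by
  intro h
  have hsx : s ⊆ insert x s := Finset.subset_insert x s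
  have hat := hA.atomic_over hM hsx
  obtain ⟨B, hB, hBc, hiso⟩ := hat.iso {y} (singleton_subset_iff.2 hy)
    (small_finite (finite_singleton y))
  -- independence over `A s`
  have h1 : M.Ind (A ∅) N {x} := hM.sym hA.memS h
  have h2 : M.Ind (A s) {y} {x} := by
    refine Ind.base_mono (P := A ∅) (h1.mono (union_subset hsN (singleton_subset_iff.2 hyN))
      Subset.rfl) (hA.mono hsx (Finset.empty_subset s))
  have h3 : M.Ind (A s) {x} {y} := hM.sym (hA.mem hsx) h2
  obtain ⟨g, hg, h4, h5⟩ := h3 B (by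
    intro c hc
    rcases hB hc with h | h
    · exact Or.inl h
    · rw [Finset.mem_coe, Finset.mem_insert] at h
      rcases h with rfl | h
      · exact Or.inr rfl
      · exact Or.inl ((hA.sub hsx).point (Finset.Subset.refl s) h)) hBc {y} Subset.rfl
      (small_finite (finite_singleton y))
  have h6 := hiso.eq_of_mem hg h4 (Or.inl (h5 y rfl))
  rw [← h6] at hys
  exact hys (h5 y rfl)

end PSys

end PG

end Vale.Agent.P307.R2.H541
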